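import Vale.Agent.P321.H35.State

/-!
LB2: literal output of the T-step, i.e. the interface between the T-step and the S-steps.
-/

namespace Vale.Agent.P321.LB2

open Filter Topology

/-- **Output of the T-step** for the pair `u`, `v` at scale `N`: two distinct words `x`, `x'` of
equal length, `x` being `n` letters long (a letter = a word of the length of `u`). -/
structure TOut (q δ N C E1 E2 : ℝ) (u : List Bool) (n : ℕ) (x x' : List Bool) : Prop where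
  ne : x ≠ x'
  len : x'.length = x.length
  len_eq : x.length = n * u.length
  lo : N ^ (7 / 5 : ℝ) ≤ n
  hi : (n : ℝ) ≤ N ^ (7 / 5 + δ)
  near : ‖W q x - W q u ^ n‖ ≤ N ^ C * E1
  f0 : ‖W q x' - W q x‖ ≤ N ^ C * E1 ^ 2
  f1 : ∀ M : ℕ, N ^ (8 / 5 + δ) ≤ M →
    ‖W q x ^ M * (W q x' - W q x) * W q x ^ M‖ ≤ N ^ C * (E1 ^ 2 * E2)

/-- **The T-step** (target of the T-step group): `δ = 1/1000` is small enough. -/
def TStepOK (q ε δ C R0 : ℝ) : Prop := ∀ᶠ N : ℝ in atTop, ∀ (E1 E2 : ℝ) (u v : List Bool),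
  St q ε N E1 E2 u v → E1 ^ 2 ≤ E2 → E2 ≤ E1 → E1 ≤ N ^ (-R0) →
  Real.exp (-(Real.log N) ^ (1 + 1 / 40 : ℝ)) ≤ E2 →
  ∃ (n : ℕ) (x x' : List Bool), TOut q δ N C E1 E2 u n x x'

/-- **The T-step, uniform in `q`.** -/
def TStepU (ε δ C R0 : ℝ) : Prop := ∀ᶠ N : ℝ in atTop, ∀ q : ℝ, 0 ≤ q → q ≤ 1 →
  ∀ (E1 E2 : ℝ) (u v : List Bool),
  St q ε N E1 E2 u v → E1 ^ 2 ≤ E2 → E2 ≤ E1 → E1 ≤ N ^ (-R0) →
  Real.exp (-(Real.log N) ^ (1 + 1 / 40 : ℝ)) ≤ E2 →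
  ∃ (n : ℕ) (x x' : List Bool), TOut q δ N C E1 E2 u n x x'

end Vale.Agent.P321.LB2
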