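import Mathlib.Tactic

/-!
Final arithmetic of the round.
-/

namespace Vale.Agent.P321.H181



lemma pw1 {N : ℝ} (hN : 100 ≤ N) : N + N ^ 3 ≤ N ^ 4 := by
  have h3 : (0:ℝ) < N ^ 3 := by positivity
  have h1 : N ≤ N ^ 3 := by
    calc N = N ^ 1 := (pow_one N).symm
      _ ≤ N ^ 3 := pow_le_pow_right₀ (by linarith) (by norm_num)
  calc N + N ^ 3 ≤ 2 * N ^ 3 := by linarith
    _ ≤ N * N ^ 3 := mul_le_mul_of_nonneg_right (by linarith) h3.le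
    _ = N ^ 4 := by ring

lemma pw2 {N : ℝ} (hN : 100 ≤ N) : N + N ^ 5 + N ^ 10 ≤ N ^ 12 := by
  have h3 : (0:ℝ) < N ^ 10 := by positivity
  have h1 : N ≤ N ^ 10 := by
    calc N = N ^ 1 := (pow_one N).symm
      _ ≤ N ^ 10 := pow_le_pow_right₀ (by linarith) (by norm_num)
  have h2 : N ^ 5 ≤ N ^ 10 := pow_le_pow_right₀ (by linarith) (by norm_num)
  have h4 : (3:ℝ) ≤ N ^ 2 := by
    calc (3:ℝ) ≤ N := by linarith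
      _ = N ^ 1 := (pow_one N).symm
      _ ≤ N ^ 2 := pow_le_pow_right₀ (by linarith) (by norm_num)
  calc N + N ^ 5 + N ^ 10 ≤ 3 * N ^ 10 := by linarith
    _ ≤ N ^ 2 * N ^ 10 := mul_le_mul_of_nonneg_right h4 h3.le
    _ = N ^ 12 := by ring

lemma pw3 {N : ℝ} (hN : 100 ≤ N) : N ^ 4 + N ^ 14 ≤ N ^ 15 := by
  have h3 : (0:ℝ) < N ^ 14 := by positivity
  have h2 : N ^ 4 ≤ N ^ 14 := pow_le_pow_right₀ (by linarith) (by norm_num)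
  calc N ^ 4 + N ^ 14 ≤ 2 * N ^ 14 := by linarith
    _ ≤ N * N ^ 14 := mul_le_mul_of_nonneg_right (by linarith) h3.le
    _ = N ^ 15 := by ring

section
variable {N c E1 E2 κ a2 a4 gb gc g1' g2' D f1 dc : ℝ}

lemma arith0 (hE2 : 0 < E2) (hE21 : E2 ≤ E1) (hE2l : E2 ≤ 1) : E2 ^ 10 ≤ E1 ^ 2 * E2 := by
  have e9 : E2 ^ 9 ≤ E1 ^ 2 := by
    calc E2 ^ 9 ≤ E2 ^ 2 := pow_le_pow_of_le_one hE2.le hE2l (by norm_num)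
      _ ≤ E1 ^ 2 := pow_le_pow_left₀ hE2.le hE21 2
  calc E2 ^ 10 = E2 ^ 9 * E2 := by ring
    _ ≤ E1 ^ 2 * E2 := mul_le_mul_of_nonneg_right e9 hE2.le

lemma arith1 (hN : 100 ≤ N) (hc : 1 ≤ c) (hE2 : 0 < E2) (hE12 : E1 ^ 2 ≤ E2)
    (h2 : a2 ≤ N) (h4 : a4 ≤ N) (h40 : 0 ≤ a4)
    (hgb : gb ≤ N ^ 2)
    (hD0 : 0 ≤ D) (hD : D ≤ c * E1 ^ 2) (hf0 : 0 ≤ f1) (hf : f1 ≤ c * (E1 ^ 2 * E2))
    (hdc : dc ≤ a2 * f1 + gb * (a4 * D ^ 2)) :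
    dc ≤ N ^ 4 * c ^ 2 * (E1 ^ 2 * E2) := by
  have hN0 : 0 < N := by linarith
  have hc0 : 0 < c := by linarith
  have hD2 : D ^ 2 ≤ c ^ 2 * E1 ^ 4 := by
    calc D ^ 2 ≤ (c * E1 ^ 2) ^ 2 := pow_le_pow_left₀ hD0 hD 2
      _ = c ^ 2 * E1 ^ 4 := by ring
  have hE4 : E1 ^ 4 ≤ E1 ^ 2 * E2 := by
    calc E1 ^ 4 = E1 ^ 2 * E1 ^ 2 := by ring
      _ ≤ E1 ^ 2 * E2 := mul_le_mul_of_nonneg_left hE12 (by positivity)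
  have hcc : c ≤ c ^ 2 := by
    calc c = c ^ 1 := (pow_one c).symm
      _ ≤ c ^ 2 := pow_le_pow_right₀ hc (by norm_num)
  have t1 : a2 * f1 ≤ N * (c ^ 2 * (E1 ^ 2 * E2)) :=
    mul_le_mul h2 (hf.trans (mul_le_mul_of_nonneg_right hcc (by positivity))) hf0 hN0.le
  have t2 : gb * (a4 * D ^ 2) ≤ N ^ 2 * (N * (c ^ 2 * (E1 ^ 2 * E2))) := by
    refine mul_le_mul hgb (mul_le_mul h4 (hD2.trans ?_) (sq_nonneg D) hN0.le) (by positivity)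
      (by positivity)
    exact mul_le_mul_of_nonneg_left hE4 (by positivity)
  calc dc ≤ N * (c ^ 2 * (E1 ^ 2 * E2)) + N ^ 2 * (N * (c ^ 2 * (E1 ^ 2 * E2))) :=
        hdc.trans (add_le_add t1 t2)
    _ = (N + N ^ 3) * (c ^ 2 * (E1 ^ 2 * E2)) := by ring
    _ ≤ N ^ 4 * (c ^ 2 * (E1 ^ 2 * E2)) := mul_le_mul_of_nonneg_right (pw1 hN) (by positivity)
    _ = _ := by ring

lemma arith2 (hN : 100 ≤ N) (hc : 1 ≤ c) (hE2 : 0 < E2) (hE21 : E2 ≤ E1) (hE2l : E2 ≤ 1)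
    (hκ0 : 0 ≤ κ) (hκ : κ ≤ E2 ^ 10)
    (h2 : a2 ≤ N) (h4 : a4 ≤ N) (h20 : 0 ≤ a2) (h40 : 0 ≤ a4)
    (hgc : gc ≤ N ^ 3) (hgc0 : 0 ≤ gc) (hg1 : g1' ≤ N) (hg10 : 0 ≤ g1')
    (hD0 : 0 ≤ D) (hD : D ≤ c * E1 ^ 2)
    (hdc0 : 0 ≤ dc) (key1 : dc ≤ N ^ 4 * c ^ 2 * (E1 ^ 2 * E2)) :
    a2 * (κ * D + gc * (a4 * D ^ 2)) + g1' * (a4 * dc ^ 2) ≤ N ^ 12 * c ^ 4 * E1 ^ 4 := by
  have hN0 : 0 < N := by linarith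
  have hc0 : 0 < c := by linarith
  have hE1p : 0 < E1 := by linarith
  have hD2 : D ^ 2 ≤ c ^ 2 * E1 ^ 4 := by
    calc D ^ 2 ≤ (c * E1 ^ 2) ^ 2 := pow_le_pow_left₀ hD0 hD 2
      _ = c ^ 2 * E1 ^ 4 := by ring
  have hcc : c ≤ c ^ 2 := by
    calc c = c ^ 1 := (pow_one c).symm
      _ ≤ c ^ 2 := pow_le_pow_right₀ hc (by norm_num)
  have hc24 : c ^ 2 ≤ c ^ 4 := pow_le_pow_right₀ hc (by norm_num)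
  have hdc2 : dc ^ 2 ≤ N ^ 8 * c ^ 4 * (E1 ^ 4 * E2 ^ 2) := by
    calc dc ^ 2 ≤ (N ^ 4 * c ^ 2 * (E1 ^ 2 * E2)) ^ 2 := pow_le_pow_left₀ hdc0 key1 2
      _ = _ := by ring
  have t1 : κ * D ≤ c ^ 2 * E1 ^ 4 := by
    have : κ ≤ E1 ^ 2 := hκ.trans ((arith0 hE2 hE21 hE2l).trans
      (mul_le_of_le_one_right (by positivity) hE2l))
    calc κ * D ≤ E1 ^ 2 * (c * E1 ^ 2) := mul_le_mul this hD hD0 (by positivity)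
      _ = c * E1 ^ 4 := by ring
      _ ≤ c ^ 2 * E1 ^ 4 := mul_le_mul_of_nonneg_right hcc (by positivity)
  have t2 : gc * (a4 * D ^ 2) ≤ N ^ 3 * (N * (c ^ 2 * E1 ^ 4)) :=
    mul_le_mul hgc (mul_le_mul h4 hD2 (sq_nonneg D) hN0.le) (by positivity) (by positivity)
  have t3 : a2 * (κ * D + gc * (a4 * D ^ 2)) ≤
      N * (c ^ 2 * E1 ^ 4 + N ^ 3 * (N * (c ^ 2 * E1 ^ 4))) :=
    mul_le_mul h2 (add_le_add t1 t2) (by positivity) hN0.le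
  have t4 : g1' * (a4 * dc ^ 2) ≤ N * (N * (N ^ 8 * c ^ 4 * (E1 ^ 4 * E2 ^ 2))) :=
    mul_le_mul hg1 (mul_le_mul h4 hdc2 (sq_nonneg dc) hN0.le) (by positivity) hN0.le
  have t5 : E1 ^ 4 * E2 ^ 2 ≤ E1 ^ 4 :=
    mul_le_of_le_one_right (by positivity) (pow_le_one₀ hE2.le hE2l)
  have t6 : N * (N * (N ^ 8 * c ^ 4 * (E1 ^ 4 * E2 ^ 2))) ≤ N ^ 10 * (c ^ 4 * E1 ^ 4) := by
    calc _ = N ^ 10 * (c ^ 4 * (E1 ^ 4 * E2 ^ 2)) := by ring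
      _ ≤ _ := by gcongr
  calc _ ≤ N * (c ^ 2 * E1 ^ 4 + N ^ 3 * (N * (c ^ 2 * E1 ^ 4))) + N ^ 10 * (c ^ 4 * E1 ^ 4) :=
        add_le_add t3 (t4.trans t6)
    _ = (N + N ^ 5) * (c ^ 2 * E1 ^ 4) + N ^ 10 * (c ^ 4 * E1 ^ 4) := by ring
    _ ≤ (N + N ^ 5) * (c ^ 4 * E1 ^ 4) + N ^ 10 * (c ^ 4 * E1 ^ 4) := by gcongr
    _ = (N + N ^ 5 + N ^ 10) * (c ^ 4 * E1 ^ 4) := by ring
    _ ≤ N ^ 12 * (c ^ 4 * E1 ^ 4) := mul_le_mul_of_nonneg_right (pw2 hN) (by positivity)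
    _ = _ := by ring

lemma arith3 (hN : 100 ≤ N) (hc : 1 ≤ c) (hE2 : 0 < E2) (hE21 : E2 ≤ E1) (hE2l : E2 ≤ 1)
    (hκ0 : 0 ≤ κ) (hκ : κ ≤ E2 ^ 10)
    (h4 : a4 ≤ N) (h40 : 0 ≤ a4) (hg2 : g2' ≤ N ^ 5) (hg20 : 0 ≤ g2')
    (hdc0 : 0 ≤ dc) (key1 : dc ≤ N ^ 4 * c ^ 2 * (E1 ^ 2 * E2)) :
    κ * dc + g2' * (a4 * dc ^ 2) ≤ N ^ 15 * c ^ 4 * (E1 ^ 4 * E2 ^ 2) := by
  have hN0 : 0 < N := by linarith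
  have hc0 : 0 < c := by linarith
  have hE1p : 0 < E1 := by linarith
  have hc24 : c ^ 2 ≤ c ^ 4 := pow_le_pow_right₀ hc (by norm_num)
  have hdc2 : dc ^ 2 ≤ N ^ 8 * c ^ 4 * (E1 ^ 4 * E2 ^ 2) := by
    calc dc ^ 2 ≤ (N ^ 4 * c ^ 2 * (E1 ^ 2 * E2)) ^ 2 := pow_le_pow_left₀ hdc0 key1 2
      _ = _ := by ring
  have t1 : κ * dc ≤ N ^ 4 * (c ^ 4 * (E1 ^ 4 * E2 ^ 2)) := by
    calc κ * dc ≤ (E1 ^ 2 * E2) * (N ^ 4 * c ^ 2 * (E1 ^ 2 * E2)) :=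
          mul_le_mul (hκ.trans (arith0 hE2 hE21 hE2l)) key1 hdc0 (by positivity)
      _ = N ^ 4 * (c ^ 2 * (E1 ^ 4 * E2 ^ 2)) := by ring
      _ ≤ _ := by gcongr
  have t2 : g2' * (a4 * dc ^ 2) ≤ N ^ 5 * (N * (N ^ 8 * c ^ 4 * (E1 ^ 4 * E2 ^ 2))) :=
    mul_le_mul hg2 (mul_le_mul h4 hdc2 (sq_nonneg dc) hN0.le) (by positivity) (by positivity)
  calc _ ≤ N ^ 4 * (c ^ 4 * (E1 ^ 4 * E2 ^ 2)) + N ^ 5 * (N * (N ^ 8 * c ^ 4 * (E1 ^ 4 * E2 ^ 2))) :=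
        add_le_add t1 t2
    _ = (N ^ 4 + N ^ 14) * (c ^ 4 * (E1 ^ 4 * E2 ^ 2)) := by ring
    _ ≤ N ^ 15 * (c ^ 4 * (E1 ^ 4 * E2 ^ 2)) := mul_le_mul_of_nonneg_right (pw3 hN) (by positivity)
    _ = _ := by ring

end

end Vale.Agent.P321.H181
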