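import Vale.Agent.P321.H181.SStep

/-!
Composition of two S-steps with a padding in between, abstract form.
-/

namespace Vale.Agent.P321.H181

variable {A : Type*} [Ring A] {p : RingSeminorm A}
variable {Z D : A} (h1 : p 1 ≤ 1) (hZ : p Z ≤ 1) (hV : p (Z + D) ≤ 1)

/-- first word of the first Thue-Morse pair -/
def u2 (Z D : A) (r : ℕ) : A := (tmU Z (Z + D) r).1
/-- difference of the first Thue-Morse pair -/
def d2 (Z D : A) (r : ℕ) : A := (tmU Z (Z + D) r).2 - (tmU Z (Z + D) r).1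
/-- padded background -/
def zc (Z D : A) (r h : ℕ) : A := u2 Z D r ^ (2 * h + 1)
/-- padded difference -/
def dc (Z D : A) (r h : ℕ) : A := u2 Z D r ^ h * d2 Z D r * u2 Z D r ^ h
/-- first word of the second Thue-Morse pair -/
def u3 (Z D : A) (r h : ℕ) : A := (tmU (zc Z D r h) (zc Z D r h + dc Z D r h) r).1
/-- difference of the second Thue-Morse pair -/
def d3 (Z D : A) (r h : ℕ) : A := (tmU (zc Z D r h) (zc Z D r h + dc Z D r h) r).2 -
  (tmU (zc Z D r h) (zc Z D r h + dc Z D r h) r).1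

include hZ hV in
lemma u2_le (r : ℕ) : p (u2 Z D r) ≤ 1 := (tm_le_one hZ hV r).1

include h1 hZ hV in
lemma zc_le (r h : ℕ) : p (zc Z D r h) ≤ 1 := p_pow_le_one p h1 (u2_le hZ hV r) _

lemma zc_add_dc (r h : ℕ) : zc Z D r h + dc Z D r h =
    u2 Z D r ^ h * (tmU Z (Z + D) r).2 * u2 Z D r ^ h := by
  have e : zc Z D r h = u2 Z D r ^ h * u2 Z D r * u2 Z D r ^ h := by
    rw [zc, ← pow_succ, ← pow_add]; congr 1; ring
  rw [e, dc, d2]
  show u2 Z D r ^ h * u2 Z D r * u2 Z D r ^ h +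
    u2 Z D r ^ h * ((tmU Z (Z + D) r).2 - u2 Z D r) * u2 Z D r ^ h = _
  noncomm_ring

include h1 hZ hV in
lemma zc_add_dc_le (r h : ℕ) : p (zc Z D r h + dc Z D r h) ≤ 1 := by
  rw [zc_add_dc]
  have hu := p_pow_le_one p h1 (u2_le hZ hV r) h
  exact (p_mul_le_right p hu).trans ((p_mul_le_left p hu).trans (tm_le_one hZ hV r).2)

lemma pow_ctx (Y X : A) (a b : ℕ) : Y ^ a * (Y ^ b * X * Y ^ b) * Y ^ a =
    Y ^ (a + b) * X * Y ^ (a + b) := by
  have e1 : Y ^ (a + b) = Y ^ a * Y ^ b := pow_add _ _ _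
  have e2 : Y ^ (a + b) = Y ^ b * Y ^ a := by rw [← pow_add, add_comm]
  calc Y ^ a * (Y ^ b * X * Y ^ b) * Y ^ a = (Y ^ a * Y ^ b) * X * (Y ^ b * Y ^ a) := by
        simp only [mul_assoc]
    _ = Y ^ (a + b) * X * Y ^ (a + b) := by rw [← e1, ← e2]

lemma ctx_anti {Y X : A} (h1 : p 1 ≤ 1) (hY : p Y ≤ 1) {a b : ℕ} (h : a ≤ b) :
    p (Y ^ b * X * Y ^ b) ≤ p (Y ^ a * X * Y ^ a) := by
  obtain ⟨c, rfl⟩ := Nat.exists_eq_add_of_le h
  rw [add_comm, ← pow_ctx]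
  have hc := p_pow_le_one p h1 hY c
  exact (p_mul_le_right p hc).trans (p_mul_le_left p hc)

include h1 hZ hV in
/-- padded difference, medium context -/
lemma dc_le (r h G : ℕ) (hG : G ≤ h) : p (dc Z D r h) ≤
    2 ^ r * p (Z ^ (2 ^ r * G) * D * Z ^ (2 ^ r * G)) + (2 * G + 1) * (4 ^ r * p D ^ 2) :=
  (sstep h1 hZ hV r G h hG).trans (by gcongr; exact tmL_ctx h1 hZ _ r)

include h1 hZ hV in
/-- the first Thue-Morse difference in a long context -/
lemma d2_long (r G M : ℕ) (hG : G ≤ M) : p (u2 Z D r ^ M * d2 Z D r * u2 Z D r ^ M) ≤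
    p (Z ^ (2 ^ r * G) * tmL Z D r * Z ^ (2 ^ r * G)) + (2 * G + 1) * (4 ^ r * p D ^ 2) :=
  sstep h1 hZ hV r G M hG

include h1 hZ hV in
/-- second difference: the short context -/
lemma d3_short (r h G Gc M : ℕ) (hG : G ≤ M) (hGc : Gc ≤ (2 * h + 1) * (2 ^ r * G)) :
    p (u3 Z D r h ^ M * d3 Z D r h * u3 Z D r h ^ M) ≤
    2 ^ r * (p (Z ^ (2 ^ r * Gc) * tmL Z D r * Z ^ (2 ^ r * Gc)) +
      (2 * Gc + 1) * (4 ^ r * p D ^ 2)) + (2 * G + 1) * (4 ^ r * p (dc Z D r h) ^ 2) := by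
  have hz := zc_le h1 hZ hV r h
  have hv := zc_add_dc_le h1 hZ hV r h
  refine (sstep h1 hz hv r G M hG).trans ?_
  gcongr
  refine (tmL_ctx h1 hz _ r).trans ?_
  gcongr
  have e : zc Z D r h ^ (2 ^ r * G) * dc Z D r h * zc Z D r h ^ (2 ^ r * G) =
      u2 Z D r ^ ((2 * h + 1) * (2 ^ r * G) + h) * d2 Z D r *
        u2 Z D r ^ ((2 * h + 1) * (2 ^ r * G) + h) := by
    rw [zc, ← pow_mul, dc, pow_ctx]
  rw [e]
  exact d2_long h1 hZ hV r Gc _ (by omega)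

include h1 hZ hV in
/-- second difference: the long context -/
lemma d3_long (r h G M : ℕ) (hG : G ≤ M) :
    p (u3 Z D r h ^ M * d3 Z D r h * u3 Z D r h ^ M) ≤
    p (zc Z D r h ^ (2 ^ r * G) * tmL (zc Z D r h) (dc Z D r h) r * zc Z D r h ^ (2 ^ r * G)) +
      (2 * G + 1) * (4 ^ r * p (dc Z D r h) ^ 2) :=
  sstep h1 (zc_le h1 hZ hV r h) (zc_add_dc_le h1 hZ hV r h) r G M hG

include h1 hZ hV in
/-- powers of the padded background compared with powers of `Z` -/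
lemma zc_near (r h : ℕ) : p (zc Z D r h - Z ^ (2 ^ r * (2 * h + 1))) ≤
    (2 * h + 1 : ℕ) * (2 ^ r * p D) :=
  tm_pow_sub h1 hZ hV r (2 * h + 1)

/-- powers of close elements -/
lemma pow_sub_pow_le {x y : A} (h1 : p 1 ≤ 1) (hx : p x ≤ 1) (hy : p y ≤ 1) (n : ℕ) :
    p (x ^ n - y ^ n) ≤ n * p (x - y) := by
  induction n with
  | zero => simp
  | succ n ih =>
    have e : x ^ (n + 1) - y ^ (n + 1) = (x ^ n - y ^ n) * x + y ^ n * (x - y) := by
      rw [pow_succ, pow_succ]; noncomm_ring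
    rw [e]
    calc _ ≤ p ((x ^ n - y ^ n) * x) + p (y ^ n * (x - y)) := map_add_le_add p _ _
      _ ≤ n * p (x - y) + p (x - y) := add_le_add ((p_mul_le_right p hx).trans ih)
          (p_mul_le_left p (p_pow_le_one p h1 hy n))
      _ = ((n + 1 : ℕ) : ℝ) * p (x - y) := by push_cast; ring

include h1 hZ hV in
lemma u3_near (r h : ℕ) : p (u3 Z D r h - Z ^ (2 ^ r * (2 * h + 1) * 2 ^ r)) ≤
    2 ^ r * p (dc Z D r h) + 2 ^ r * ((2 * h + 1 : ℕ) * (2 ^ r * p D)) := by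
  have hz := zc_le h1 hZ hV r h
  have hv := zc_add_dc_le h1 hZ hV r h
  have a := (tm_sub_pow h1 hz hv r).1
  have b := pow_sub_pow_le h1 hz (p_pow_le_one p h1 hZ (2 ^ r * (2 * h + 1))) (2 ^ r)
  have c := zc_near h1 hZ hV r h
  have e : u3 Z D r h - Z ^ (2 ^ r * (2 * h + 1) * 2 ^ r) =
      (u3 Z D r h - zc Z D r h ^ (2 ^ r)) +
      (zc Z D r h ^ (2 ^ r) - (Z ^ (2 ^ r * (2 * h + 1))) ^ (2 ^ r)) := by
    rw [← pow_mul]; abel
  rw [e]
  refine (map_add_le_add p _ _).trans (add_le_add a (b.trans ?_))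
  push_cast
  gcongr
  simpa using c

end Vale.Agent.P321.H181
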