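import Mathlib.Analysis.SpecialFunctions.Pow.Asymptotics
import Mathlib.Tactic

/-!
Numerical facts for the round: the number of Thue-Morse levels is `⌈(log N)^(3/5)⌉`.
-/

namespace Vale.Agent.P321.H181

open Filter Topology Real

/-- number of Thue-Morse levels -/
noncomputable def lv (N : ℝ) : ℕ := ⌈(log N) ^ (3 / 5 : ℝ)⌉₊

/-- the facts about `N` which are used in the round -/
structure Big (N : ℝ) : Prop where
  one_le : 1 ≤ N
  cst : (100:ℝ) ≤ N ^ (1 / 100000 : ℝ)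
  two : (2:ℝ) ^ lv N ≤ N ^ (1 / 100000 : ℝ)
  lvb : ((lv N : ℕ) : ℝ) ≤ N ^ (1 / 100000 : ℝ)
  kill : (N ^ (-(1 / 1000) : ℝ)) ^ lv N ≤ exp (-(10 * (log N) ^ (1 + 1 / 40 : ℝ)))

theorem eventually_big : ∀ᶠ N : ℝ in atTop, Big N := by
  have t1 : Tendsto (fun N : ℝ => N ^ (1 / 100000 : ℝ)) atTop atTop :=
    tendsto_rpow_atTop (by norm_num)
  have tl : Tendsto (fun N : ℝ => (log N) ^ (2 / 5 : ℝ)) atTop atTop :=
    (tendsto_rpow_atTop (by norm_num)).comp tendsto_log_atTop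
  have tl2 : Tendsto (fun N : ℝ => (log N) ^ (23 / 40 : ℝ)) atTop atTop :=
    (tendsto_rpow_atTop (by norm_num)).comp tendsto_log_atTop
  filter_upwards [eventually_ge_atTop 1, t1.eventually_ge_atTop 100, tl.eventually_ge_atTop 200000,
    tl2.eventually_ge_atTop 10000, tendsto_log_atTop.eventually_ge_atTop 1] with N h1 h2 h3 h4 h5
  have hN : 0 < N := by linarith
  set L := log N with hL
  have hL0 : 0 < L := by linarith
  have e1 : L = L ^ (3 / 5 : ℝ) * L ^ (2 / 5 : ℝ) := by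
    rw [← rpow_add hL0]; norm_num
  have p35 : 1 ≤ L ^ (3 / 5 : ℝ) := one_le_rpow h5 (by norm_num)
  have hlv : ((lv N : ℕ) : ℝ) ≤ L ^ (3 / 5 : ℝ) + 1 := by
    have := Nat.ceil_lt_add_one (a := L ^ (3 / 5 : ℝ)) (by positivity)
    exact this.le
  have hlv2 : L ^ (3 / 5 : ℝ) ≤ ((lv N : ℕ) : ℝ) := Nat.le_ceil _
  have hsm : ((lv N : ℕ) : ℝ) ≤ L / 100000 := by
    have : L ^ (3 / 5 : ℝ) * 200000 ≤ L := by
      calc L ^ (3 / 5 : ℝ) * 200000 ≤ L ^ (3 / 5 : ℝ) * L ^ (2 / 5 : ℝ) := by gcongr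
        _ = L := e1.symm
    linarith
  have eN : ∀ c : ℝ, N ^ c = exp (L * c) := fun c => by rw [rpow_def_of_pos hN]
  refine ⟨h1, h2, ?_, ?_, ?_⟩
  · have : (2:ℝ) ^ lv N ≤ exp (lv N) := by
      have h2e : (2:ℝ) ≤ exp 1 := by have := add_one_le_exp (1:ℝ); linarith
      calc (2:ℝ) ^ lv N ≤ (exp 1) ^ lv N := pow_le_pow_left₀ (by norm_num) h2e _
        _ = exp (lv N) := by rw [← exp_nat_mul]; simp
    refine this.trans ?_
    rw [eN]
    apply exp_le_exp.2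
    linarith
  · rw [eN]
    have := add_one_le_exp (L * (1 / 100000))
    linarith
  · rw [eN, ← exp_nat_mul]
    apply exp_le_exp.2
    have e2 : L ^ (1 + 1 / 40 : ℝ) * L ^ (23 / 40 : ℝ) = L ^ (3 / 5 : ℝ) * L := by
      rw [← rpow_add hL0]
      nth_rewrite 3 [show L = L ^ (1:ℝ) by rw [rpow_one]]
      rw [← rpow_add hL0]; norm_num
    have e3 : L ^ (1 + 1 / 40 : ℝ) * 10000 ≤ L ^ (1 + 1 / 40 : ℝ) * L ^ (23 / 40 : ℝ) := by
      have : (0:ℝ) ≤ L ^ (1 + 1 / 40 : ℝ) := by positivity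
      exact mul_le_mul_of_nonneg_left h4 this
    have e4 : L ^ (3 / 5 : ℝ) * L ≤ (lv N) * L := mul_le_mul_of_nonneg_right hlv2 hL0.le
    nlinarith

/-- product of two powers -/
lemma mulP {N a b x y : ℝ} (hN : 0 < N) (hb0 : 0 ≤ b) (ha : a ≤ N ^ x) (hb : b ≤ N ^ y) :
    a * b ≤ N ^ (x + y) := by
  rw [rpow_add hN]
  exact mul_le_mul ha hb hb0 (rpow_nonneg hN.le _)

lemma powP {N x y : ℝ} (hN : 1 ≤ N) (h : x ≤ y) : N ^ x ≤ N ^ y :=
  rpow_le_rpow_of_exponent_le hN h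

lemma Big.pos {N : ℝ} (h : Big N) : 0 < N := by linarith [h.one_le]

/-- ceilings of powers -/
lemma ceilP {N x : ℝ} (h : Big N) (hx : 0 ≤ x) : (⌈N ^ x⌉₊ : ℝ) ≤ 2 * N ^ x := by
  have := Nat.ceil_lt_add_one (a := N ^ x) (rpow_nonneg h.pos.le _)
  have h1 : 1 ≤ N ^ x := one_le_rpow h.one_le hx
  linarith

/-- a constant times a power -/
lemma cstP {N x c : ℝ} (h : Big N) (hc : c ≤ 100) : c * N ^ x ≤ N ^ (x + 1 / 100000) := by
  rw [add_comm, rpow_add h.pos]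
  exact mul_le_mul_of_nonneg_right (hc.trans h.cst) (rpow_nonneg h.pos.le _)

end Vale.Agent.P321.H181
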