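import Vale.Agent.P321.H181.Num

/-!
Numerical facts for the round, second part: the parameters.
-/

namespace Vale.Agent.P321.H181

open Filter Topology Real

/-- padding of the second S-step -/
noncomputable def hp (N : ℝ) : ℕ := ⌈N ^ (803 / 500 : ℝ)⌉₊
/-- context for the medium bound of the T-step -/
noncomputable def Gb (N δ : ℝ) : ℕ := ⌈N ^ (8 / 5 + δ : ℝ)⌉₊
/-- letters per level for the first kill -/
noncomputable def g1 (N : ℝ) : ℕ := ⌈N ^ (1203 / 500 : ℝ)⌉₊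
/-- context of the short bound -/
noncomputable def G1 (N : ℝ) : ℕ := ⌈N ^ (803 / 1000 : ℝ)⌉₊
/-- letters per level for the second kill -/
noncomputable def g2 (N : ℝ) : ℕ := ⌈N ^ (2009 / 500 : ℝ)⌉₊

lemma leC {N x y : ℝ} (h : Big N) (hx : 0 ≤ x) (hxy : x + 1 / 100000 ≤ y) :
    (⌈N ^ x⌉₊ : ℝ) ≤ N ^ y :=
  (ceilP h hx).trans ((cstP h (by norm_num)).trans (powP h.one_le hxy))

lemma leC5 {N x y : ℝ} (h : Big N) (hx : 0 ≤ x) (hxy : x + 1 / 100000 ≤ y) :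
    (2 * (⌈N ^ x⌉₊ : ℝ) + 1) ≤ N ^ y := by
  have h1 : 1 ≤ N ^ x := one_le_rpow h.one_le hx
  have h2 := ceilP h hx
  have h3 : 5 * N ^ x ≤ N ^ (x + 1 / 100000) := cstP h (by norm_num)
  exact le_trans (by linarith) (h3.trans (powP h.one_le hxy))

lemma Big.two_le {N : ℝ} (h : Big N) : (100:ℝ) ≤ N := by
  have := h.cst.trans (powP h.one_le (show (1 / 100000 : ℝ) ≤ 1 by norm_num))
  rwa [rpow_one] at this

lemma four_lv {N : ℝ} (h : Big N) : (4:ℝ) ^ lv N ≤ N ^ (2 / 100000 : ℝ) := by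
  have e : (4:ℝ) ^ lv N = 2 ^ lv N * 2 ^ lv N := by rw [← mul_pow]; norm_num
  rw [e]
  exact (mulP h.pos (by positivity) h.two h.two).trans (powP h.one_le (by norm_num))

lemma Gb_le_hp {N δ : ℝ} (h : Big N) (hδ : δ ≤ 1 / 1000) : Gb N δ ≤ hp N := by
  apply Nat.ceil_le_ceil
  exact powP h.one_le (by linarith)

lemma le_Gb {N δ : ℝ} : N ^ (8 / 5 + δ : ℝ) ≤ ((2 ^ lv N * Gb N δ : ℕ) : ℝ) := by
  have h1 : N ^ (8 / 5 + δ : ℝ) ≤ (Gb N δ : ℝ) := Nat.le_ceil _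
  have h2 : (1:ℝ) ≤ 2 ^ lv N := one_le_pow₀ (by norm_num)
  push_cast
  nlinarith [Nat.cast_nonneg (α := ℝ) (Gb N δ)]

lemma Gc_le {N : ℝ} (h : Big N) :
    lv N * g1 N ≤ (2 * hp N + 1) * (2 ^ lv N * G1 N) := by
  have a1 : ((lv N : ℕ) : ℝ) * (g1 N : ℝ) ≤ N ^ (1 / 100000 + (1203 / 500 + 1 / 100000) : ℝ) :=
    mulP h.pos (by positivity) h.lvb (leC h (by norm_num) le_rfl)
  have a2 : N ^ (803 / 500 + 803 / 1000 : ℝ) ≤ (hp N : ℝ) * (G1 N : ℝ) := by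
    rw [rpow_add h.pos]
    exact mul_le_mul (Nat.le_ceil _) (Nat.le_ceil _) (rpow_nonneg h.pos.le _) (by positivity)
  have a3 : ((lv N : ℕ) : ℝ) * (g1 N : ℝ) ≤ (hp N : ℝ) * (G1 N : ℝ) :=
    a1.trans ((powP h.one_le (by norm_num)).trans a2)
  have a4 : lv N * g1 N ≤ hp N * G1 N := by exact_mod_cast a3
  refine a4.trans ?_
  have : 1 ≤ 2 ^ lv N := Nat.one_le_two_pow
  calc hp N * G1 N ≤ (2 * hp N + 1) * (1 * G1 N) := by
        rw [one_mul]; exact Nat.mul_le_mul_right _ (by omega)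
    _ ≤ (2 * hp N + 1) * (2 ^ lv N * G1 N) := by gcongr

lemma G1_le {N ε : ℝ} {M : ℕ} (h : Big N) (hε : 0 ≤ ε)
    (hM : (N ^ (201 / 50 : ℝ)) ^ (1 / 5 + ε) ≤ M) : G1 N ≤ M := by
  have a1 : (G1 N : ℝ) ≤ N ^ (804 / 1000 : ℝ) := leC h (by norm_num) (by norm_num)
  have a2 : N ^ (804 / 1000 : ℝ) ≤ (N ^ (201 / 50 : ℝ)) ^ (1 / 5 + ε) := by
    rw [← rpow_mul h.pos.le]
    exact powP h.one_le (by nlinarith)
  exact_mod_cast a1.trans (a2.trans hM)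

lemma G2_le {N ε : ℝ} {M : ℕ} (h : Big N) (hε : 0 ≤ ε)
    (hM : (N ^ (201 / 50 : ℝ)) ^ (1 + ε) ≤ M) : lv N * g2 N ≤ M := by
  have a1 : ((lv N : ℕ) : ℝ) * (g2 N : ℝ) ≤ N ^ (1 / 100000 + (2009 / 500 + 1 / 100000) : ℝ) :=
    mulP h.pos (by positivity) h.lvb (leC h (by norm_num) le_rfl)
  have a2 : N ^ (1 / 100000 + (2009 / 500 + 1 / 100000) : ℝ) ≤ (N ^ (201 / 50 : ℝ)) ^ (1 + ε) := by
    rw [← rpow_mul h.pos.le]
    exact powP h.one_le (by nlinarith)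
  exact_mod_cast a1.trans (a2.trans hM)

/-- size of the constants -/
lemma sizes {N δ : ℝ} (h : Big N) (hδ0 : 0 ≤ δ) (hδ : δ ≤ 1 / 1000) :
    (2:ℝ) ^ lv N ≤ N ∧ (4:ℝ) ^ lv N ≤ N ∧ 2 * (Gb N δ : ℝ) + 1 ≤ N ^ 2 ∧
    2 * ((lv N * g1 N : ℕ) : ℝ) + 1 ≤ N ^ 3 ∧ 2 * (G1 N : ℝ) + 1 ≤ N ∧
    2 * ((lv N * g2 N : ℕ) : ℝ) + 1 ≤ N ^ 5 ∧ 2 * (hp N : ℝ) + 1 ≤ N ^ (8031 / 5000 : ℝ) := by
  have r1 : N ^ (1:ℝ) = N := rpow_one N
  have e2 : N ^ 2 = N ^ (2:ℝ) := by norm_num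
  have e3 : N ^ 3 = N ^ (3:ℝ) := by norm_num
  have e5 : N ^ 5 = N ^ (5:ℝ) := by norm_num
  have lvg : ∀ x y : ℝ, 0 ≤ x → x + 4 / 100000 ≤ y →
      2 * ((lv N * ⌈N ^ x⌉₊ : ℕ) : ℝ) + 1 ≤ N ^ y := by
    intro x y hx hxy
    have a1 : ((lv N : ℕ) : ℝ) * (⌈N ^ x⌉₊ : ℝ) ≤ N ^ (1 / 100000 + (x + 1 / 100000) : ℝ) :=
      mulP h.pos (by positivity) h.lvb (leC h hx le_rfl)
    have a2 : 1 ≤ N ^ (1 / 100000 + (x + 1 / 100000) : ℝ) := one_le_rpow h.one_le (by linarith)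
    have a3 : 3 * N ^ (1 / 100000 + (x + 1 / 100000) : ℝ) ≤
        N ^ (1 / 100000 + (x + 1 / 100000) + 1 / 100000 : ℝ) := cstP h (by norm_num)
    push_cast
    refine le_trans ?_ (a3.trans (powP h.one_le (by linarith)))
    linarith
  refine ⟨?_, ?_, ?_, ?_, ?_, ?_, ?_⟩
  · rw [← r1]
    simpa [rpow_one] using h.two.trans (powP h.one_le (show (1 / 100000 : ℝ) ≤ 1 by norm_num))
  · have := (four_lv h).trans (powP h.one_le (show (2 / 100000 : ℝ) ≤ 1 by norm_num))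
    rwa [r1] at this
  · rw [e2]; exact leC5 h (by linarith) (by linarith)
  · rw [e3]; exact lvg _ _ (by norm_num) (by norm_num)
  · have := leC5 h (show (0:ℝ) ≤ 803 / 1000 by norm_num) (show (803 / 1000 : ℝ) + 1 / 100000 ≤ 1 by norm_num)
    rwa [r1] at this
  · rw [e5]; exact lvg _ _ (by norm_num) (by norm_num)
  · exact leC5 h (by norm_num) (by norm_num)

/-- the gain of one level of the Thue-Morse word -/
lemma kill_factor {N S s σ σ' ε : ℝ} {g : ℕ} (h : Big N) (hS0 : 0 < S) (hS : S ≤ N ^ σ)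
    (hg : N ^ σ' ≤ g) (hε : 0 ≤ ε) (hs : s ≤ S ^ ε * Real.sqrt (S / g))
    (hnum : σ * ε + (σ - σ') / 2 + 2 / 100000 ≤ -(1 / 1000)) :
    2 * (2 ^ lv N * s) ≤ N ^ (-(1 / 1000) : ℝ) := by
  have hg0 : 0 < N ^ σ' := rpow_pos_of_pos h.pos _
  have a1 : S ^ ε ≤ N ^ (σ * ε) := by
    rw [rpow_mul h.pos.le]
    exact rpow_le_rpow hS0.le hS hε
  have a2 : S / g ≤ N ^ (σ - σ') := by
    rw [rpow_sub h.pos]
    exact div_le_div₀ (rpow_nonneg h.pos.le _) hS hg0 hg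
  have a3 : Real.sqrt (S / g) ≤ N ^ ((σ - σ') / 2) := by
    calc Real.sqrt (S / g) ≤ Real.sqrt (N ^ (σ - σ')) := Real.sqrt_le_sqrt a2
      _ = N ^ ((σ - σ') / 2) := by
          rw [Real.sqrt_eq_rpow, ← rpow_mul h.pos.le]; congr 1; ring
  have a4 : s ≤ N ^ (σ * ε + (σ - σ') / 2) :=
    hs.trans (mulP h.pos (Real.sqrt_nonneg _) a1 a3)
  have a5 : 2 * (2:ℝ) ^ lv N ≤ N ^ (2 / 100000 : ℝ) := by
    calc 2 * (2:ℝ) ^ lv N ≤ 2 * N ^ (1 / 100000 : ℝ) := by linarith [h.two]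
      _ ≤ N ^ (1 / 100000 + 1 / 100000 : ℝ) := cstP h (by norm_num)
      _ = N ^ (2 / 100000 : ℝ) := by norm_num
  calc 2 * (2 ^ lv N * s) = (2 * (2:ℝ) ^ lv N) * s := by ring
    _ ≤ (2 * (2:ℝ) ^ lv N) * N ^ (σ * ε + (σ - σ') / 2) := by gcongr
    _ ≤ N ^ (2 / 100000 : ℝ) * N ^ (σ * ε + (σ - σ') / 2) :=
        mul_le_mul_of_nonneg_right a5 (rpow_nonneg h.pos.le _)
    _ = N ^ (2 / 100000 + (σ * ε + (σ - σ') / 2)) := by rw [← rpow_add h.pos]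
    _ ≤ _ := powP h.one_le (by linarith)

lemma kill_prod {N s : ℝ} (h : Big N) (hs0 : 0 ≤ s)
    (hs : 2 * (2 ^ lv N * s) ≤ N ^ (-(1 / 1000) : ℝ)) :
    ∏ b ∈ Finset.range (lv N), (2 * (2 ^ b * s)) ≤
      exp (-(10 * (log N) ^ (1 + 1 / 40 : ℝ))) := by
  refine le_trans ?_ h.kill
  calc ∏ b ∈ Finset.range (lv N), (2 * (2 ^ b * s)) ≤
      ∏ _b ∈ Finset.range (lv N), N ^ (-(1 / 1000) : ℝ) := by
        apply Finset.prod_le_prod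
        · intro b _; positivity
        · intro b hb
          refine le_trans ?_ hs
          have : (2:ℝ) ^ b ≤ 2 ^ lv N :=
            pow_le_pow_right₀ (by norm_num) (Finset.mem_range.1 hb).le
          gcongr
    _ = (N ^ (-(1 / 1000) : ℝ)) ^ lv N := by simp

end Vale.Agent.P321.H181
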