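import Vale.Agent.P321.H181.Words
import Vale.Agent.P321.H35.Slip

/-!
PAD: a letter is replaced by the same letter between copies of the background letter.
-/

namespace Vale.Agent.P321.H181

open Filter Topology Real Vale.Agent.P321.LB2

theorem pad_step {q ε : ℝ} (h0 : 0 ≤ q) (h1 : q ≤ 1) (hε : 0 < ε) (hε1 : ε ≤ 1 / 2) :
    ∀ᶠ N : ℝ in atTop, ∀ (E1 E2 : ℝ) (u v : List Bool), St q ε N E1 E2 u v →
      ∃ (N' : ℝ) (u' v' : List Bool), N ^ (5 / 3 : ℝ) ≤ N' ∧ N' ≤ 5 * N ^ (5 / 3 : ℝ) ∧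
        St q ε N' E2 E2 u' v' := by
  have t1 : Tendsto (fun N : ℝ => N ^ (1 : ℝ)) atTop atTop := tendsto_rpow_atTop (by norm_num)
  filter_upwards [ev_slip_inherit ε hε hε1, eventually_ge_atTop 5] with N hNi hN5
  intro E1 E2 u v hSt
  have hN0 : 0 < N := by linarith
  have hN1 : 1 ≤ N := by linarith
  set h : ℕ := ⌈N ^ (2 / 3 : ℝ)⌉₊ with hh
  have hx1 : 1 ≤ N ^ (2 / 3 : ℝ) := one_le_rpow hN1 (by norm_num)
  have hlo : N ^ (2 / 3 : ℝ) ≤ h := Nat.le_ceil _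
  have hhi : (h : ℝ) ≤ N ^ (2 / 3 : ℝ) + 1 := (Nat.ceil_lt_add_one (by positivity)).le
  have e53 : N * N ^ (2 / 3 : ℝ) = N ^ (5 / 3 : ℝ) := by
    nth_rewrite 1 [← rpow_one N]
    rw [← rpow_add hN0]; norm_num
  have hnl : N ^ (2 / 3 : ℝ) ≤ ((2 * h + 1 : ℕ) : ℝ) := by push_cast; linarith
  have hnh : ((2 * h + 1 : ℕ) : ℝ) ≤ 5 * N ^ (2 / 3 : ℝ) := by push_cast; linarith
  have pw : ∀ {x y : ℝ}, x ≤ y → N ^ x ≤ N ^ y := fun h => rpow_le_rpow_of_exponent_le hN1 h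
  obtain ⟨K, hK, hKb⟩ := hSt.slip
  have hZ : W q (padW u u h) = W q u ^ (2 * h + 1) := W_padW_self q u h
  have h53 : 5 * N ^ (2 / 3 : ℝ) ≤ N ^ (50 : ℝ) := by
    calc 5 * N ^ (2 / 3 : ℝ) ≤ N * N ^ (2 / 3 : ℝ) := mul_le_mul_of_nonneg_right hN5 (by positivity)
      _ = N ^ (5 / 3 : ℝ) := e53
      _ ≤ N ^ (50:ℝ) := pw (by norm_num)
  obtain ⟨K', hK', hK'b⟩ := hNi (W q u) (W q (padW u u h)) K (2 * h + 1) (W_prob h0 h1 u)
    (MA.W_l1_le h0 h1 _) hK hKb ((pw (by norm_num)).trans hnl) (hnh.trans h53)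
    (by rw [hZ, sub_self, norm_zero]; positivity)
  refine ⟨N * ((2 * h + 1 : ℕ) : ℝ), padW u u h, padW u v h, ?_, ?_, padW_ne hSt.ne h, ?_, ?_,
    ⟨K', hK', hK'b⟩, ?_, ?_⟩
  · rw [← e53]; exact mul_le_mul_of_nonneg_left hnl hN0.le
  · calc N * ((2 * h + 1 : ℕ) : ℝ) ≤ N * (5 * N ^ (2 / 3 : ℝ)) :=
          mul_le_mul_of_nonneg_left hnh hN0.le
      _ = 5 * N ^ (5 / 3 : ℝ) := by rw [← e53]; ring
  · rw [padW_length hSt.len, padW_length rfl]
  · rw [padW_length rfl]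
    push_cast
    have := mul_le_mul_of_nonneg_left hSt.hi (show (0:ℝ) ≤ 2 * h + 1 by positivity)
    linarith
  all_goals
    intro M hM
    have eD : W q (padW u v h) - W q (padW u u h) =
        W q u ^ h * (W q v - W q u) * W q u ^ h := by
      rw [W_padW, W_padW]; noncomm_ring
    have e : W q (padW u u h) ^ M * (W q (padW u v h) - W q (padW u u h)) *
        W q (padW u u h) ^ M =
        W q u ^ ((2 * h + 1) * M + h) * (W q v - W q u) * W q u ^ ((2 * h + 1) * M + h) := by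
      rw [eD, hZ, ← pow_mul]
      have e1 : W q u ^ ((2 * h + 1) * M + h) = W q u ^ ((2 * h + 1) * M) * W q u ^ h :=
        pow_add _ _ _
      have e2 : W q u ^ ((2 * h + 1) * M + h) = W q u ^ h * W q u ^ ((2 * h + 1) * M) := by
        rw [← pow_add, add_comm]
      calc _ = (W q u ^ ((2 * h + 1) * M) * W q u ^ h) * (W q v - W q u) *
            (W q u ^ h * W q u ^ ((2 * h + 1) * M)) := by simp only [mul_assoc]
        _ = _ := by rw [← e1, ← e2]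
    rw [e]
    apply hSt.e2
    have hNle : N ^ (5 / 3 : ℝ) ≤ N * ((2 * h + 1 : ℕ) : ℝ) := by
      rw [← e53]; exact mul_le_mul_of_nonneg_left hnl hN0.le
    have hbase : (1:ℝ) ≤ N * ((2 * h + 1 : ℕ) : ℝ) := by
      refine le_trans ?_ hNle
      exact one_le_rpow hN1 (by norm_num)
    have hM' : N ^ (1 / 3 + 5 / 3 * ε : ℝ) ≤ M := by
      refine le_trans ?_ hM
      have a : N ^ (1 / 3 + 5 / 3 * ε : ℝ) = (N ^ (5 / 3 : ℝ)) ^ (1 / 5 + ε) := by
        rw [← rpow_mul hN0.le]; congr 1; ring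
      rw [a]
      first
        | exact rpow_le_rpow (by positivity) hNle (by linarith)
        | exact (rpow_le_rpow (by positivity) hNle (by linarith)).trans
            (rpow_le_rpow_of_exponent_le hbase (by linarith))
    push_cast
    have b : N ^ (1 + ε) ≤ N ^ (2 / 3 : ℝ) * N ^ (1 / 3 + 5 / 3 * ε : ℝ) := by
      rw [← rpow_add hN0]; exact pw (by linarith)
    have c : N ^ (2 / 3 : ℝ) * N ^ (1 / 3 + 5 / 3 * ε : ℝ) ≤ (2 * (h:ℝ) + 1) * M := by
      have hnl' := hnl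
      push_cast at hnl'
      exact mul_le_mul hnl' hM' (by positivity) (by positivity)
    have hh0 : (0:ℝ) ≤ h := Nat.cast_nonneg _
    linarith

end Vale.Agent.P321.H181
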