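import Vale.Agent.P321.H181.Words
import Vale.Agent.P321.H181.Compose
import Vale.Agent.P321.H181.Num2
import Vale.Agent.P321.H181.Arith
import Vale.Agent.P321.H35.Slip
import Vale.Agent.P321.H35.Uni

/-!
From the T-step to one round.
-/

namespace Vale.Agent.P321.H181

open Filter Topology Real Vale.Agent.P321.LB2

lemma norm_W_le {q : ℝ} (h0 : 0 ≤ q) (h1 : q ≤ 1) (u : List Bool) : ‖W q u‖ ≤ 1 :=
  MA.W_l1_le h0 h1 u

lemma norm_one_le : ‖(1 : Al)‖ ≤ 1 := by rw [norm_def, MA.l1_one]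

/-- words of the round -/
noncomputable def wc (N : ℝ) (x x' : List Bool) : List Bool :=
  padW (tmW x x' (lv N)).1 (tmW x x' (lv N)).1 (hp N)
/-- words of the round -/
noncomputable def wc' (N : ℝ) (x x' : List Bool) : List Bool :=
  padW (tmW x x' (lv N)).1 (tmW x x' (lv N)).2 (hp N)
/-- words of the round -/
noncomputable def wu (N : ℝ) (x x' : List Bool) : List Bool := (tmW (wc N x x') (wc' N x x') (lv N)).1
/-- words of the round -/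
noncomputable def wv (N : ℝ) (x x' : List Bool) : List Bool := (tmW (wc N x x') (wc' N x x') (lv N)).2

section
variable {q : ℝ} {N : ℝ} {x x' : List Bool}

lemma W_wc : W q (wc N x x') = zc (W q x) (W q x' - W q x) (lv N) (hp N) := by
  rw [wc, W_padW_self, zc, u2, add_sub_cancel, (W_tmW q x x' (lv N)).1]

lemma W_wc' : W q (wc' N x x') = zc (W q x) (W q x' - W q x) (lv N) (hp N) +
    dc (W q x) (W q x' - W q x) (lv N) (hp N) := by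
  rw [zc_add_dc, u2, add_sub_cancel, ← (W_tmW q x x' (lv N)).1, ← (W_tmW q x x' (lv N)).2,
    wc', W_padW]

lemma W_wu : W q (wu N x x') = u3 (W q x) (W q x' - W q x) (lv N) (hp N) := by
  rw [wu, (W_tmW q _ _ (lv N)).1, W_wc, W_wc', u3]

lemma W_wv_sub : W q (wv N x x') - W q (wu N x x') =
    d3 (W q x) (W q x' - W q x) (lv N) (hp N) := by
  rw [wv, wu, (W_tmW q _ _ (lv N)).1, (W_tmW q _ _ (lv N)).2, W_wc, W_wc', d3]

lemma wc_length (hl : x'.length = x.length) :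
    (wc N x x').length = (2 * hp N + 1) * (2 ^ lv N * x.length) ∧
    (wc' N x x').length = (2 * hp N + 1) * (2 ^ lv N * x.length) := by
  obtain ⟨l1, l2⟩ := tmW_length hl (lv N)
  constructor
  · rw [wc, padW_length rfl, l1]
  · rw [wc', padW_length (l2.trans l1.symm), l1]

lemma wu_length (hl : x'.length = x.length) :
    (wu N x x').length = 2 ^ lv N * ((2 * hp N + 1) * (2 ^ lv N * x.length)) ∧
    (wv N x x').length = 2 ^ lv N * ((2 * hp N + 1) * (2 ^ lv N * x.length)) := by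
  obtain ⟨l1, l2⟩ := wc_length (N := N) hl
  obtain ⟨k1, k2⟩ := tmW_length (l2.trans l1.symm) (lv N)
  exact ⟨by rw [wu, k1, l1], by rw [wv, k2, l1]⟩

lemma wu_ne (hl : x'.length = x.length) (hne : x ≠ x') : wu N x x' ≠ wv N x x' := by
  obtain ⟨l1, l2⟩ := wc_length (N := N) hl
  exact tmW_ne (l2.trans l1.symm) (padW_ne (tmW_ne hl hne (lv N)) (hp N)) (lv N)

end

/-- the ring seminorm -/
noncomputable abbrev pn : RingSeminorm Al := normRingSeminorm Al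

/-- kill at a general scale -/
lemma kill_gen {N S ε σ σ' : ℝ} {Z D : Al} {g : ℕ} (hB : Big N) (hS0 : 0 < S) (hS : S ≤ N ^ σ)
    (hg : N ^ σ' ≤ g) (hε : 0 ≤ ε) (hs : ‖(1 - Z) * Z ^ g‖ ≤ S ^ ε * Real.sqrt (S / g))
    (hnum : σ * ε + (σ - σ') / 2 + 2 / 100000 ≤ -(1 / 1000)) (pZ : pn Z ≤ 1) :
    pn (Z ^ (2 ^ lv N * (lv N * g)) * tmL Z D (lv N) * Z ^ (2 ^ lv N * (lv N * g))) ≤
      exp (-(10 * (log N) ^ (1 + 1 / 40 : ℝ))) * pn D := by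
  have kf1 := kill_factor hB hS0 hS hg hε hs hnum
  have kp1 := kill_prod hB (norm_nonneg _) kf1
  have h2 : lv N * g ≤ 2 ^ lv N * (lv N * g) := Nat.le_mul_of_pos_left _ (by positivity)
  have a := ctx_anti (p := pn) (X := tmL Z D (lv N)) norm_one_le pZ h2
  refine a.trans ((tmL_kill (D := D) norm_one_le pZ (s := ‖(1 - Z) * Z ^ g‖) (g := g) le_rfl
    (lv N)).trans ?_)
  exact mul_le_mul_of_nonneg_right kp1 (apply_nonneg pn D)

/-- smallness of the padded difference -/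
lemma dc_small {N : ℝ} {Z D : Al} (hB : Big N) (pZ : pn Z ≤ 1) (pV : pn (Z + D) ≤ 1)
    (sz1 : (2:ℝ) ^ lv N ≤ N) (sz2 : (4:ℝ) ^ lv N ≤ N)
    (pDs : pn D ≤ N ^ (-200 : ℝ)) : pn (dc Z D (lv N) (hp N)) ≤ N ^ (-190 : ℝ) := by
  have hN0 := hB.pos
  have hN1 := hB.one_le
  have hN100 := hB.two_le
  have pD0 : 0 ≤ pn D := apply_nonneg pn D
  have p1 : pn 1 ≤ 1 := norm_one_le
  have a : pn (dc Z D (lv N) (hp N)) ≤ pn (d2 Z D (lv N)) := by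
    have hu := p_pow_le_one pn p1 (u2_le pZ pV (lv N)) (hp N)
    exact (p_mul_le_right pn hu).trans (p_mul_le_left pn hu)
  have b : pn (d2 Z D (lv N)) ≤ 2 ^ lv N * pn D + 4 ^ lv N * pn D ^ 2 := by
    have e : d2 Z D (lv N) = tmL Z D (lv N) +
        ((tmU Z (Z + D) (lv N)).2 - (tmU Z (Z + D) (lv N)).1 - tmL Z D (lv N)) := by
      rw [d2]; abel
    rw [e]
    exact (map_add_le_add pn _ _).trans (add_le_add (tmL_le p1 pZ _) (tm_rem p1 pZ pV _))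
  have hDl : pn D ≤ 1 := pDs.trans (rpow_le_one_of_one_le_of_nonpos hN1 (by norm_num))
  have c1 : pn D ^ 2 ≤ pn D := by nlinarith
  have d1 : 2 ^ lv N * pn D + 4 ^ lv N * pn D ^ 2 ≤ 2 * N * pn D := by
    have := mul_le_mul_of_nonneg_right sz1 pD0
    have := mul_le_mul sz2 c1 (sq_nonneg _) hN0.le
    linarith
  have e0 : 2 * N ≤ N ^ (2:ℝ) := by
    rw [show N ^ (2:ℝ) = N ^ 2 by norm_num]
    nlinarith
  have e1 : 2 * N * pn D ≤ N ^ (2:ℝ) * N ^ (-200:ℝ) := mul_le_mul e0 pDs pD0 (by positivity)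
  have f1 : N ^ (2:ℝ) * N ^ (-200:ℝ) ≤ N ^ (-190 : ℝ) := by
    rw [← rpow_add hN0]; exact powP hN1 (by norm_num)
  linarith

lemma near_c {N : ℝ} {Z D Y : Al} {n : ℕ} (hB : Big N) (pZ : pn Z ≤ 1) (pV : pn (Z + D) ≤ 1)
    (pY : pn Y ≤ 1) (hh7 : 2 * (hp N : ℝ) + 1 ≤ N ^ (8031 / 5000 : ℝ))
    (pDs : pn D ≤ N ^ (-200 : ℝ)) (nearZ : pn (Z - Y ^ n) ≤ N ^ (-200 : ℝ)) :
    pn (zc Z D (lv N) (hp N) - Y ^ (n * (2 ^ lv N * (2 * hp N + 1)))) ≤ N ^ (-190 : ℝ) := by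
  have hN0 := hB.pos
  have hN1 := hB.one_le
  have p1 : pn 1 ≤ 1 := norm_one_le
  have a := zc_near p1 pZ pV (lv N) (hp N)
  have b := pow_sub_pow_le p1 pZ (p_pow_le_one pn p1 pY n) (2 ^ lv N * (2 * hp N + 1))
  have e : zc Z D (lv N) (hp N) - Y ^ (n * (2 ^ lv N * (2 * hp N + 1))) =
      (zc Z D (lv N) (hp N) - Z ^ (2 ^ lv N * (2 * hp N + 1))) +
      (Z ^ (2 ^ lv N * (2 * hp N + 1)) - (Y ^ n) ^ (2 ^ lv N * (2 * hp N + 1))) := by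
    rw [← pow_mul]; abel
  rw [e]
  refine (map_add_le_add pn _ _).trans ?_
  have a' : pn (zc Z D (lv N) (hp N) - Z ^ (2 ^ lv N * (2 * hp N + 1))) ≤
      N ^ (3:ℝ) * N ^ (-200:ℝ) := by
    refine a.trans ?_
    calc ((2 * hp N + 1 : ℕ) : ℝ) * (2 ^ lv N * pn D) =
          ((2 * (hp N : ℝ) + 1) * 2 ^ lv N) * pn D := by push_cast; ring
      _ ≤ N ^ (3:ℝ) * N ^ (-200:ℝ) := by
          refine mul_le_mul ?_ pDs (apply_nonneg pn D) (by positivity)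
          exact (mulP hN0 (by positivity) hh7 hB.two).trans (powP hN1 (by norm_num))
  have b' : pn (Z ^ (2 ^ lv N * (2 * hp N + 1)) - (Y ^ n) ^ (2 ^ lv N * (2 * hp N + 1))) ≤
      N ^ (3:ℝ) * N ^ (-200:ℝ) := by
    refine b.trans ?_
    refine mul_le_mul ?_ nearZ (apply_nonneg pn _) (by positivity)
    push_cast
    exact (mulP hN0 (by positivity) hB.two hh7).trans (powP hN1 (by norm_num))
  have f1 : N ^ (3:ℝ) * N ^ (-200:ℝ) = N ^ (-197 : ℝ) := by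
    rw [← rpow_add hN0]; norm_num
  have f2 : 2 * N ^ (-197:ℝ) ≤ N ^ (-190:ℝ) :=
    (cstP hB (by norm_num)).trans (powP hN1 (by norm_num))
  rw [f1] at a' b'
  linarith

lemma near_3 {N : ℝ} {Z D Y : Al} {n : ℕ} (hB : Big N) (pZ : pn Z ≤ 1) (pV : pn (Z + D) ≤ 1)
    (pY : pn Y ≤ 1) (hh7 : 2 * (hp N : ℝ) + 1 ≤ N ^ (8031 / 5000 : ℝ))
    (pDs : pn D ≤ N ^ (-200 : ℝ)) (nearZ : pn (Z - Y ^ n) ≤ N ^ (-200 : ℝ))
    (pdCs : pn (dc Z D (lv N) (hp N)) ≤ N ^ (-190 : ℝ)) :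
    pn (u3 Z D (lv N) (hp N) - Y ^ (n * (2 ^ lv N * (2 * hp N + 1) * 2 ^ lv N))) ≤
      N ^ (-100 : ℝ) := by
  have hN0 := hB.pos
  have hN1 := hB.one_le
  have p1 : pn 1 ≤ 1 := norm_one_le
  have a := u3_near p1 pZ pV (lv N) (hp N)
  have b := pow_sub_pow_le p1 pZ (p_pow_le_one pn p1 pY n) (2 ^ lv N * (2 * hp N + 1) * 2 ^ lv N)
  have e : u3 Z D (lv N) (hp N) - Y ^ (n * (2 ^ lv N * (2 * hp N + 1) * 2 ^ lv N)) =
      (u3 Z D (lv N) (hp N) - Z ^ (2 ^ lv N * (2 * hp N + 1) * 2 ^ lv N)) +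
      (Z ^ (2 ^ lv N * (2 * hp N + 1) * 2 ^ lv N) -
        (Y ^ n) ^ (2 ^ lv N * (2 * hp N + 1) * 2 ^ lv N)) := by
    rw [← pow_mul]; abel
  rw [e]
  refine (map_add_le_add pn _ _).trans ?_
  have a1 : (2:ℝ) ^ lv N * pn (dc Z D (lv N) (hp N)) ≤ N ^ (5:ℝ) * N ^ (-190:ℝ) := by
    refine mul_le_mul (hB.two.trans (powP hN1 (by norm_num))) pdCs (apply_nonneg pn _)
      (by positivity)
  have a2 : (2:ℝ) ^ lv N * (((2 * hp N + 1 : ℕ) : ℝ) * (2 ^ lv N * pn D)) ≤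
      N ^ (5:ℝ) * N ^ (-190:ℝ) := by
    calc (2:ℝ) ^ lv N * (((2 * hp N + 1 : ℕ) : ℝ) * (2 ^ lv N * pn D)) =
          (2 ^ lv N * ((2 * (hp N : ℝ) + 1) * 2 ^ lv N)) * pn D := by push_cast; ring
      _ ≤ N ^ (5:ℝ) * N ^ (-190:ℝ) := by
          refine mul_le_mul ?_ (pDs.trans (powP hN1 (by norm_num))) (apply_nonneg pn D)
            (by positivity)
          exact (mulP hN0 (by positivity) hB.two (mulP hN0 (by positivity) hh7 hB.two)).trans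
            (powP hN1 (by norm_num))
  have b' : pn (Z ^ (2 ^ lv N * (2 * hp N + 1) * 2 ^ lv N) -
      (Y ^ n) ^ (2 ^ lv N * (2 * hp N + 1) * 2 ^ lv N)) ≤ N ^ (5:ℝ) * N ^ (-190:ℝ) := by
    refine b.trans ?_
    refine mul_le_mul ?_ (nearZ.trans (powP hN1 (by norm_num))) (apply_nonneg pn _)
      (by positivity)
    push_cast
    exact (mulP hN0 (by positivity) (mulP hN0 (by positivity) hB.two hh7) hB.two).trans
      (powP hN1 (by norm_num))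
  have f1 : N ^ (5:ℝ) * N ^ (-190:ℝ) = N ^ (-185 : ℝ) := by
    rw [← rpow_add hN0]; norm_num
  have f2 : 3 * N ^ (-185:ℝ) ≤ N ^ (-100:ℝ) :=
    (cstP hB (by norm_num)).trans (powP hN1 (by norm_num))
  rw [f1] at a1 a2 b'
  linarith

/-- numbers of letters -/
lemma letters {N : ℝ} {n : ℕ} (hB : Big N) (hnr : (n : ℝ) ≤ N ^ (1401 / 1000 : ℝ))
    (hh7 : 2 * (hp N : ℝ) + 1 ≤ N ^ (8031 / 5000 : ℝ)) :
    ((n * (2 ^ lv N * (2 * hp N + 1)) : ℕ) : ℝ) ≤ N ^ (30073 / 10000 : ℝ) ∧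
    ((n * (2 ^ lv N * (2 * hp N + 1) * 2 ^ lv N) : ℕ) : ℝ) ≤ N ^ (30074 / 10000 : ℝ) ∧
    (n : ℝ) ≤ ((n * (2 ^ lv N * (2 * hp N + 1)) : ℕ) : ℝ) ∧
    (n : ℝ) ≤ ((n * (2 ^ lv N * (2 * hp N + 1) * 2 ^ lv N) : ℕ) : ℝ) := by
  have hN0 := hB.pos
  have hN1 := hB.one_le
  have q1 : 1 ≤ 2 ^ lv N := Nat.one_le_two_pow
  refine ⟨?_, ?_, ?_, ?_⟩
  · push_cast
    refine (mulP hN0 (by positivity) hnr (mulP hN0 (by positivity) hB.two hh7)).trans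
      (powP hN1 (by norm_num))
  · push_cast
    refine (mulP hN0 (by positivity) hnr (mulP hN0 (by positivity)
      (mulP hN0 (by positivity) hB.two hh7) hB.two)).trans (powP hN1 (by norm_num))
  · have : n * 1 ≤ n * (2 ^ lv N * (2 * hp N + 1)) :=
      Nat.mul_le_mul_left _ (Nat.one_le_iff_ne_zero.2 (by positivity))
    rw [mul_one] at this
    exact_mod_cast this
  · have : n * 1 ≤ n * (2 ^ lv N * (2 * hp N + 1) * 2 ^ lv N) :=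
      Nat.mul_le_mul_left _ (Nat.one_le_iff_ne_zero.2 (by positivity))
    rw [mul_one] at this
    exact_mod_cast this

/-- the two context bounds of the new pair -/
lemma bounds {N δ C ε E1 E2 κ : ℝ} {Z D : Al} (hB : Big N) (hδ : 0 ≤ δ) (hδ1 : δ ≤ 1 / 1000)
    (hC : 0 ≤ C) (hε : 0 ≤ ε)
    (hE2 : 0 < E2) (hE21 : E2 ≤ E1) (hE12 : E1 ^ 2 ≤ E2) (hE2l : E2 ≤ 1)
    (hκ0 : 0 ≤ κ) (hκ : κ ≤ E2 ^ 10)
    (pZ : pn Z ≤ 1) (pV : pn (Z + D) ≤ 1) (pD : pn D ≤ N ^ C * E1 ^ 2)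
    (hf1 : pn (Z ^ (2 ^ lv N * Gb N δ) * D * Z ^ (2 ^ lv N * Gb N δ)) ≤ N ^ C * (E1 ^ 2 * E2))
    (kill1 : pn (Z ^ (2 ^ lv N * (lv N * g1 N)) * tmL Z D (lv N) *
      Z ^ (2 ^ lv N * (lv N * g1 N))) ≤ κ * pn D)
    (kill2 : pn (zc Z D (lv N) (hp N) ^ (2 ^ lv N * (lv N * g2 N)) *
      tmL (zc Z D (lv N) (hp N)) (dc Z D (lv N) (hp N)) (lv N) *
      zc Z D (lv N) (hp N) ^ (2 ^ lv N * (lv N * g2 N))) ≤ κ * pn (dc Z D (lv N) (hp N))) :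
    (∀ M : ℕ, (N ^ (201 / 50 : ℝ)) ^ (1 / 5 + ε) ≤ M →
      pn (u3 Z D (lv N) (hp N) ^ M * d3 Z D (lv N) (hp N) * u3 Z D (lv N) (hp N) ^ M) ≤
        N ^ (4 * C + 15) * E1 ^ 4) ∧
    (∀ M : ℕ, (N ^ (201 / 50 : ℝ)) ^ (1 + ε) ≤ M →
      pn (u3 Z D (lv N) (hp N) ^ M * d3 Z D (lv N) (hp N) * u3 Z D (lv N) (hp N) ^ M) ≤
        N ^ (4 * C + 15) * E1 ^ 4 * E2 ^ 2) := by
  have hN0 := hB.pos
  have hN1 := hB.one_le
  have hN100 := hB.two_le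
  have p1 : pn 1 ≤ 1 := norm_one_le
  have hc1 : 1 ≤ N ^ C := one_le_rpow hN1 hC
  have pD0 : 0 ≤ pn D := apply_nonneg pn D
  obtain ⟨sz1, sz2, sz3, sz4, sz5, sz6, -⟩ := sizes hB hδ hδ1
  have a20 : (0:ℝ) ≤ 2 ^ lv N := by positivity
  have a40 : (0:ℝ) ≤ 4 ^ lv N := by positivity
  have hdc := dc_le p1 pZ pV (lv N) (hp N) (Gb N δ) (Gb_le_hp hB hδ1)
  have pdC0 : 0 ≤ pn (dc Z D (lv N) (hp N)) := apply_nonneg pn _
  have key1 : pn (dc Z D (lv N) (hp N)) ≤ N ^ 4 * (N ^ C) ^ 2 * (E1 ^ 2 * E2) :=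
    arith1 hN100 hc1 hE2 hE12 sz1 sz2 a40 sz3 pD0 pD (apply_nonneg pn _) hf1 hdc
  have hcC : N ^ (4 * C + 15) = N ^ 15 * (N ^ C) ^ 4 := by
    rw [add_comm, rpow_add hN0, ← rpow_natCast, ← rpow_natCast (N ^ C) 4, ← rpow_mul hN0.le]
    norm_num [mul_comm]
  constructor
  · intro M hM
    have t := d3_short p1 pZ pV (lv N) (hp N) (G1 N) (lv N * g1 N) M (G1_le hB hε hM) (Gc_le hB)
    refine t.trans ?_
    have st : (2:ℝ) ^ lv N * (pn (Z ^ (2 ^ lv N * (lv N * g1 N)) * tmL Z D (lv N) *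
        Z ^ (2 ^ lv N * (lv N * g1 N))) +
        (2 * ((lv N * g1 N : ℕ) : ℝ) + 1) * (4 ^ lv N * pn D ^ 2)) ≤
        2 ^ lv N * (κ * pn D + (2 * ((lv N * g1 N : ℕ) : ℝ) + 1) * (4 ^ lv N * pn D ^ 2)) :=
      mul_le_mul_of_nonneg_left (add_le_add kill1 le_rfl) a20
    refine (add_le_add st le_rfl).trans ?_
    have ar := arith2 (E1 := E1) (E2 := E2) hN100 hc1 hE2 hE21 hE2l hκ0 hκ sz1 sz2
      a20 a40 sz4 (by positivity) sz5 (by positivity) pD0 pD pdC0 key1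
    refine ar.trans ?_
    rw [hcC]
    have h12 : N ^ 12 ≤ N ^ 15 := pow_le_pow_right₀ hN1 (by norm_num)
    have h40 : 0 ≤ (N ^ C) ^ 4 := by positivity
    have h41 : 0 ≤ E1 ^ 4 := by positivity
    exact mul_le_mul_of_nonneg_right (mul_le_mul_of_nonneg_right h12 h40) h41
  · intro M hM
    have t := d3_long p1 pZ pV (lv N) (hp N) (lv N * g2 N) M (G2_le hB hε hM)
    refine t.trans ((add_le_add kill2 le_rfl).trans ?_)
    have ar := arith3 (E1 := E1) (E2 := E2) hN100 hc1 hE2 hE21 hE2l hκ0 hκ sz2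
      a40 sz6 (by positivity) pdC0 key1
    refine ar.trans (le_of_eq ?_)
    rw [hcC]
    ring

/-- the round at one scale, for one `q` -/
theorem round_point {N q ε δ C R0 E1 E2 : ℝ} {u v x x' : List Bool} {n : ℕ}
    (h0 : 0 ≤ q) (h1 : q ≤ 1) (hε : 0 < ε)
    (hε1 : ε ≤ 1 / 10000) (hδ : 0 ≤ δ) (hδ1 : δ ≤ 1 / 1000) (hC : 0 ≤ C) (hB : Big N)
    (hNk : ∀ S : ℝ, N ≤ S → ∀ (Y : Al) (K : ℕ), MA.Prob Y →
      L1Str.Slip (MA.str (G := FreeMonoid Bool)) Y K → (K : ℝ) ≤ S ^ (1 + ε) →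
      ∀ t : ℕ, 1 ≤ t → (t : ℝ) ≤ S ^ (10 : ℝ) → ‖(1 - Y) * Y ^ t‖ ≤ S ^ ε * Real.sqrt (S / t))
    (hNi : ∀ (Y Z : Al) (K n : ℕ), MA.Prob Y → ‖Z‖ ≤ 1 →
      L1Str.Slip (MA.str (G := FreeMonoid Bool)) Y K → (K : ℝ) ≤ N ^ (1 + ε) →
      N ^ (1 / 2 : ℝ) ≤ n → (n : ℝ) ≤ N ^ (50 : ℝ) → ‖Z - Y ^ n‖ ≤ N ^ (-100 : ℝ) →
      ∃ K' : ℕ, L1Str.Slip (MA.str (G := FreeMonoid Bool)) Z K' ∧ (K' : ℝ) ≤ (N * n) ^ (1 + ε))
    (hSt : St q ε N E1 E2 u v) (hE12 : E1 ^ 2 ≤ E2) (hE21 : E2 ≤ E1)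
    (hE1 : E1 ≤ N ^ (-(max R0 (C + 200))))
    (hE2 : Real.exp (-(Real.log N) ^ (1 + 1 / 40 : ℝ)) ≤ E2)
    (hO : TOut q δ N C E1 E2 u n x x') :
    ∃ (N' : ℝ) (u' v' : List Bool), N ^ (4 : ℝ) ≤ N' ∧ N' ≤ N ^ (4 + 1 / 50 : ℝ) ∧
      St q ε N' (N ^ (4 * C + 15) * E1 ^ 4) (N ^ (4 * C + 15) * E1 ^ 4 * E2 ^ 2) u' v' := by
  have hN0 : 0 < N := hB.pos
  have hN1 : 1 ≤ N := hB.one_le
  have hE1b : E1 ≤ N ^ (-(C + 200)) :=
    hE1.trans (powP hN1 (by linarith [le_max_right R0 (C + 200)]))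
  have hE2p : 0 < E2 := (exp_pos _).trans_le hE2
  have hE1p : 0 < E1 := hE2p.trans_le hE21
  have hE1l : E1 ≤ 1 := hE1b.trans (rpow_le_one_of_one_le_of_nonpos hN1 (by linarith))
  have hE2l : E2 ≤ 1 := hE21.trans hE1l
  have pZ : pn (W q x) ≤ 1 := norm_W_le h0 h1 x
  have pV : pn (W q x + (W q x' - W q x)) ≤ 1 := by
    rw [add_sub_cancel]; exact norm_W_le h0 h1 x'
  have pY : pn (W q u) ≤ 1 := norm_W_le h0 h1 u
  have pD : pn (W q x' - W q x) ≤ N ^ C * E1 ^ 2 := hO.f0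
  obtain ⟨sz1, sz2, -, -, -, -, hh7⟩ := sizes hB hδ hδ1
  have small : N ^ C * E1 ≤ N ^ (-200 : ℝ) := by
    calc N ^ C * E1 ≤ N ^ C * N ^ (-(C + 200)) := mul_le_mul_of_nonneg_left hE1b (by positivity)
      _ = N ^ (-200 : ℝ) := by rw [← rpow_add hN0]; congr 1; ring
  have pDs : pn (W q x' - W q x) ≤ N ^ (-200 : ℝ) := by
    refine pD.trans (le_trans ?_ small)
    have : E1 ^ 2 ≤ E1 := by nlinarith
    exact mul_le_mul_of_nonneg_left this (by positivity)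
  have nearZ : pn (W q x - W q u ^ n) ≤ N ^ (-200 : ℝ) := hO.near.trans small
  have hnr : (n : ℝ) ≤ N ^ (1401 / 1000 : ℝ) := hO.hi.trans (powP hN1 (by linarith))
  have hnlo : N ^ (7 / 5 : ℝ) ≤ n := hO.lo
  have hn1 : (1:ℝ) ≤ n := (one_le_rpow hN1 (by norm_num)).trans hnlo
  have hn0 : (0:ℝ) ≤ n := by linarith
  obtain ⟨hncr, hn3r, hnc1, hn31⟩ := letters hB hnr hh7
  have hlow : N ^ (1 / 2 : ℝ) ≤ n := (powP hN1 (by norm_num)).trans hnlo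
  obtain ⟨K, hK, hKb⟩ := hSt.slip
  have PY : MA.Prob (W q u) := W_prob h0 h1 u
  have PZ : MA.Prob (W q x) := W_prob h0 h1 x
  have hN1' : N ≤ N ^ (1:ℝ) := by rw [rpow_one]
  -- first kill
  obtain ⟨K1, hK1, hK1b⟩ := hNi (W q u) (W q x) K n PY pZ hK hKb hlow
    (hnr.trans (powP hN1 (by norm_num))) (nearZ.trans (powP hN1 (by norm_num)))
  have S1N : N ≤ N * n := le_mul_of_one_le_right hN0.le hn1
  have S1b : N * n ≤ N ^ (2401 / 1000 : ℝ) :=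
    (mulP hN0 hn0 hN1' hnr).trans (powP hN1 (by norm_num))
  have g1lo : N ^ (1203 / 500 : ℝ) ≤ g1 N := Nat.le_ceil _
  have g1one : 1 ≤ g1 N := by
    have : (1:ℝ) ≤ g1 N := (one_le_rpow hN1 (by norm_num)).trans g1lo
    exact_mod_cast this
  have s1 := hNk (N * n) S1N (W q x) K1 PZ hK1 hK1b (g1 N) g1one
    ((leC hB (by norm_num) (by norm_num) : (g1 N : ℝ) ≤ N ^ (10:ℝ)).trans
      (rpow_le_rpow hN0.le S1N (by norm_num)))
  have kill1 := kill_gen (D := W q x' - W q x) hB (hN0.trans_le S1N) S1b g1lo hε.le s1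
    (by linarith) pZ
  -- second kill
  have pzC : pn (zc (W q x) (W q x' - W q x) (lv N) (hp N)) ≤ 1 :=
    zc_le norm_one_le pZ pV _ _
  have PzC : MA.Prob (zc (W q x) (W q x' - W q x) (lv N) (hp N)) := by
    have := W_prob h0 h1 (wc N x x')
    rwa [W_wc] at this
  have pdCs := dc_small hB pZ pV sz1 sz2 pDs
  have nearC := near_c hB pZ pV pY hh7 pDs nearZ
  obtain ⟨K2, hK2, hK2b⟩ := hNi (W q u) _ K _ PY pzC hK hKb (hlow.trans hnc1)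
    (hncr.trans (powP hN1 (by norm_num))) (nearC.trans (powP hN1 (by norm_num)))
  have S2N : N ≤ N * ((n * (2 ^ lv N * (2 * hp N + 1)) : ℕ) : ℝ) :=
    le_mul_of_one_le_right hN0.le (hn1.trans hnc1)
  have S2b : N * ((n * (2 ^ lv N * (2 * hp N + 1)) : ℕ) : ℝ) ≤ N ^ (40073 / 10000 : ℝ) :=
    (mulP hN0 (Nat.cast_nonneg _) hN1' hncr).trans (powP hN1 (by norm_num))
  have g2lo : N ^ (2009 / 500 : ℝ) ≤ g2 N := Nat.le_ceil _
  have g2one : 1 ≤ g2 N := by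
    have : (1:ℝ) ≤ g2 N := (one_le_rpow hN1 (by norm_num)).trans g2lo
    exact_mod_cast this
  have s2 := hNk _ S2N _ K2 PzC hK2 hK2b (g2 N) g2one
    ((leC hB (by norm_num) (by norm_num) : (g2 N : ℝ) ≤ N ^ (10:ℝ)).trans
      (rpow_le_rpow hN0.le S2N (by norm_num)))
  have kill2 := kill_gen (D := dc (W q x) (W q x' - W q x) (lv N) (hp N)) hB
    (hN0.trans_le S2N) S2b g2lo hε.le s2 (by linarith) pzC
  -- slip of the new background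
  have pu3 : ‖u3 (W q x) (W q x' - W q x) (lv N) (hp N)‖ ≤ 1 := by
    have := norm_W_le h0 h1 (wu N x x')
    rwa [W_wu] at this
  obtain ⟨K3, hK3, hK3b⟩ := hNi (W q u) _ K _ PY pu3 hK hKb
    (hlow.trans hn31) (hn3r.trans (powP hN1 (by norm_num)))
    (near_3 hB pZ pV pY hh7 pDs nearZ pdCs)
  have S3b : N * ((n * (2 ^ lv N * (2 * hp N + 1) * 2 ^ lv N) : ℕ) : ℝ) ≤ N ^ (201 / 50 : ℝ) :=
    (mulP hN0 (Nat.cast_nonneg _) hN1' hn3r).trans (powP hN1 (by norm_num))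
  obtain ⟨lu, lw⟩ := wu_length (N := N) hO.len
  have hκE : exp (-(10 * (log N) ^ (1 + 1 / 40 : ℝ))) ≤ E2 ^ 10 := by
    have : exp (-(10 * (log N) ^ (1 + 1 / 40 : ℝ))) = exp (-(log N) ^ (1 + 1 / 40 : ℝ)) ^ 10 := by
      rw [← exp_nat_mul]; congr 1; push_cast; ring
    rw [this]
    exact pow_le_pow_left₀ (exp_pos _).le hE2 10
  obtain ⟨B1, B2⟩ := bounds hB hδ hδ1 hC hε.le hE2p hE21 hE12 hE2l (exp_pos _).le hκE pZ pV pD
    (hO.f1 _ le_Gb) kill1 kill2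
  refine ⟨N ^ (201 / 50 : ℝ), wu N x x', wv N x x', powP hN1 (by norm_num),
    powP hN1 (by norm_num), ⟨wu_ne hO.len hO.ne, by rw [lu, lw], ?_,
    ⟨K3, by rw [W_wu]; exact hK3, hK3b.trans (rpow_le_rpow (by positivity) S3b (by linarith))⟩,
    ?_, ?_⟩⟩
  · rw [lu]
    have e : ((2 ^ lv N * ((2 * hp N + 1) * (2 ^ lv N * x.length)) : ℕ) : ℝ) =
        ((n * (2 ^ lv N * (2 * hp N + 1) * 2 ^ lv N) : ℕ) : ℝ) * u.length := by
      rw [hO.len_eq]; push_cast; ring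
    rw [e]
    refine le_trans ?_ S3b
    rw [mul_comm]
    exact mul_le_mul_of_nonneg_right hSt.hi (Nat.cast_nonneg _)
  · intro M hM
    rw [W_wv_sub, W_wu]
    exact B1 M hM
  · intro M hM
    rw [W_wv_sub, W_wu]
    exact B2 M hM

theorem round_of_tstep {q ε δ C R0 : ℝ} (h0 : 0 ≤ q) (h1 : q ≤ 1) (hε : 0 < ε)
    (hε1 : ε ≤ 1 / 10000) (hδ : 0 ≤ δ) (hδ1 : δ ≤ 1 / 1000) (hC : 0 ≤ C)
    (hT : TStepOK q ε δ C R0) : RoundOK q ε (1 / 50) (4 * C + 15) (max R0 (C + 200)) := by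
  obtain ⟨Nk, hNk⟩ := eventually_atTop.1 (ev_kap ε 10 hε)
  unfold RoundOK
  filter_upwards [hT, eventually_big, eventually_ge_atTop Nk,
    ev_slip_inherit ε hε (by linarith)] with N hTN hB hNNk hNi
  intro E1 E2 u v hSt hE12 hE21 hE1 hE2
  have hE1a : E1 ≤ N ^ (-R0) :=
    hE1.trans (powP hB.one_le (by linarith [le_max_left R0 (C + 200)]))
  obtain ⟨n, x, x', hO⟩ := hTN E1 E2 u v hSt hE12 hE21 hE1a hE2
  exact round_point h0 h1 hε hε1 hδ hδ1 hC hB (fun S hS => hNk S (hNNk.trans hS)) hNi hSt hE12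
    hE21 hE1 hE2 hO

theorem roundU_of_tstepU {ε δ C R0 : ℝ} (hε : 0 < ε)
    (hε1 : ε ≤ 1 / 10000) (hδ : 0 ≤ δ) (hδ1 : δ ≤ 1 / 1000) (hC : 0 ≤ C)
    (hT : TStepU ε δ C R0) : RoundU ε (1 / 50) (4 * C + 15) (max R0 (C + 200)) := by
  obtain ⟨Nk, hNk⟩ := eventually_atTop.1 (ev_kap ε 10 hε)
  unfold RoundU
  filter_upwards [hT, eventually_big, eventually_ge_atTop Nk,
    ev_slip_inherit ε hε (by linarith)] with N hTN hB hNNk hNi
  intro q h0 h1 E1 E2 u v hSt hE12 hE21 hE1 hE2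
  have hE1a : E1 ≤ N ^ (-R0) :=
    hE1.trans (powP hB.one_le (by linarith [le_max_left R0 (C + 200)]))
  obtain ⟨n, x, x', hO⟩ := hTN q h0 h1 E1 E2 u v hSt hE12 hE21 hE1a hE2
  exact round_point h0 h1 hε hε1 hδ hδ1 hC hB (fun S hS => hNk S (hNNk.trans hS)) hNi hSt hE12
    hE21 hE1 hE2 hO

end Vale.Agent.P321.H181
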