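import Mathlib.Analysis.Normed.Unbundled.RingSeminorm
import Mathlib.Algebra.BigOperators.Fin
import Mathlib.Tactic

/-!
# S-steps (Thue-Morse words) in an arbitrary ring with a ring seminorm

`Z` is the law of the background letter, `Z + D` the law of the other letter.
-/

namespace Vale.Agent.P321.H181

variable {A : Type*} [Ring A] (p : RingSeminorm A)

/-- Powers of elements of seminorm at most one. -/
lemma p_pow_le_one (h1 : p 1 ≤ 1) {z : A} (hz : p z ≤ 1) (n : ℕ) : p (z ^ n) ≤ 1 := by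
  induction n with
  | zero => simpa using h1
  | succ n ih =>
    rw [pow_succ]
    calc p (z ^ n * z) ≤ p (z ^ n) * p z := map_mul_le_mul p _ _
      _ ≤ 1 * 1 := mul_le_mul ih hz (apply_nonneg p _) zero_le_one
      _ = 1 := one_mul 1

lemma p_mul_le_left {x y : A} (hx : p x ≤ 1) : p (x * y) ≤ p y := by
  calc p (x * y) ≤ p x * p y := map_mul_le_mul p _ _
    _ ≤ 1 * p y := mul_le_mul_of_nonneg_right hx (apply_nonneg p _)
    _ = p y := one_mul _

lemma p_mul_le_right {x y : A} (hy : p y ≤ 1) : p (x * y) ≤ p x := by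
  calc p (x * y) ≤ p x * p y := map_mul_le_mul p _ _
    _ ≤ p x * 1 := mul_le_mul_of_nonneg_left hy (apply_nonneg p _)
    _ = p x := mul_one _

lemma p_sub_le (x y : A) : p (x - y) ≤ p x + p y := by
  rw [sub_eq_add_neg]
  calc p (x + -y) ≤ p x + p (-y) := map_add_le_add p _ _
    _ = p x + p y := by rw [map_neg_eq_map]

/-- The Thue-Morse pair of words built from two elements. -/
def tmU (u v : A) : ℕ → A × A
  | 0 => (u, v)
  | k + 1 => ((tmU u v k).1 * (tmU u v k).2, (tmU u v k).2 * (tmU u v k).1)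

/-- The linear part of the difference of the Thue-Morse pair. -/
def tmL (Z D : A) : ℕ → A
  | 0 => D
  | k + 1 => tmL Z D k * Z ^ (2 ^ k) - Z ^ (2 ^ k) * tmL Z D k

section
variable {p}
variable {Z D : A} (h1 : p 1 ≤ 1) (hZ : p Z ≤ 1) (hV : p (Z + D) ≤ 1)

include hZ hV in
lemma tm_le_one (k : ℕ) : p (tmU Z (Z + D) k).1 ≤ 1 ∧ p (tmU Z (Z + D) k).2 ≤ 1 := by
  induction k with
  | zero => exact ⟨hZ, hV⟩
  | succ k ih =>
    exact ⟨(p_mul_le_left p ih.1).trans ih.2, (p_mul_le_left p ih.2).trans ih.1⟩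

include h1 hZ hV in
lemma tm_sub_pow (k : ℕ) : p ((tmU Z (Z + D) k).1 - Z ^ (2 ^ k)) ≤ 2 ^ k * p D ∧
    p ((tmU Z (Z + D) k).2 - Z ^ (2 ^ k)) ≤ 2 ^ k * p D := by
  induction k with
  | zero =>
    constructor
    · simp [tmU]
    · simp [tmU]
  | succ k ih =>
    obtain ⟨ih1, ih2⟩ := ih
    obtain ⟨b1, b2⟩ := tm_le_one hZ hV k
    have hz := p_pow_le_one p h1 hZ (2 ^ k)
    have key : ∀ a b : A, p a ≤ 1 → p b ≤ 1 → p (a - Z ^ (2 ^ k)) ≤ 2 ^ k * p D →
        p (b - Z ^ (2 ^ k)) ≤ 2 ^ k * p D → p (a * b - Z ^ (2 ^ (k + 1))) ≤ 2 ^ (k + 1) * p D := by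
      intro a b ha hb hab hbb
      have e : a * b - Z ^ (2 ^ (k + 1)) = (a - Z ^ (2 ^ k)) * b + Z ^ (2 ^ k) * (b - Z ^ (2 ^ k)) := by
        rw [pow_succ 2 k, mul_two, pow_add]
        noncomm_ring
      rw [e]
      calc _ ≤ p ((a - Z ^ (2 ^ k)) * b) + p (Z ^ (2 ^ k) * (b - Z ^ (2 ^ k))) := map_add_le_add p _ _
        _ ≤ p (a - Z ^ (2 ^ k)) + p (b - Z ^ (2 ^ k)) :=
            add_le_add (p_mul_le_right p hb) (p_mul_le_left p hz)
        _ ≤ 2 ^ k * p D + 2 ^ k * p D := add_le_add hab hbb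
        _ = 2 ^ (k + 1) * p D := by ring
    exact ⟨key _ _ b1 b2 ih1 ih2, key _ _ b2 b1 ih2 ih1⟩

include h1 hZ in
lemma tmL_le (k : ℕ) : p (tmL Z D k) ≤ 2 ^ k * p D := by
  induction k with
  | zero => simp [tmL]
  | succ k ih =>
    have hz := p_pow_le_one p h1 hZ (2 ^ k)
    calc p (tmL Z D (k + 1)) ≤ p (tmL Z D k * Z ^ (2 ^ k)) + p (Z ^ (2 ^ k) * tmL Z D k) :=
          p_sub_le p _ _
      _ ≤ p (tmL Z D k) + p (tmL Z D k) := add_le_add (p_mul_le_right p hz) (p_mul_le_left p hz)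
      _ ≤ 2 ^ k * p D + 2 ^ k * p D := add_le_add ih ih
      _ = 2 ^ (k + 1) * p D := by ring

include h1 hZ hV in
/-- The difference of the Thue-Morse pair is its linear part up to second order. -/
lemma tm_rem (k : ℕ) : p ((tmU Z (Z + D) k).2 - (tmU Z (Z + D) k).1 - tmL Z D k) ≤
    4 ^ k * p D ^ 2 := by
  induction k with
  | zero => simp [tmU, tmL]
  | succ k ih =>
    obtain ⟨c1, c2⟩ := tm_sub_pow h1 hZ hV k
    obtain ⟨b1, b2⟩ := tm_le_one hZ hV k
    have hL := tmL_le (D := D) h1 hZ k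
    set U := (tmU Z (Z + D) k).1 with hU
    set V := (tmU Z (Z + D) k).2 with hVV
    set L := tmL Z D k with hLL
    set z := Z ^ (2 ^ k) with hz
    have e : (tmU Z (Z + D) (k + 1)).2 - (tmU Z (Z + D) (k + 1)).1 - tmL Z D (k + 1) =
        (V - U - L) * U - U * (V - U - L) + (L * (U - z) - (U - z) * L) := by
      show V * U - U * V - (L * z - z * L) = _
      noncomm_ring
    rw [e]
    have hLn : (0:ℝ) ≤ p L := apply_nonneg p _
    have hD : (0:ℝ) ≤ p D := apply_nonneg p _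
    have t1 : p ((V - U - L) * U - U * (V - U - L)) ≤ 2 * (4 ^ k * p D ^ 2) := by
      calc _ ≤ p ((V - U - L) * U) + p (U * (V - U - L)) := p_sub_le p _ _
        _ ≤ p (V - U - L) + p (V - U - L) := add_le_add (p_mul_le_right p b1) (p_mul_le_left p b1)
        _ ≤ 2 * (4 ^ k * p D ^ 2) := by linarith
    have t2 : p (L * (U - z) - (U - z) * L) ≤ 2 * (4 ^ k * p D ^ 2) := by
      calc _ ≤ p (L * (U - z)) + p ((U - z) * L) := p_sub_le p _ _
        _ ≤ p L * p (U - z) + p (U - z) * p L :=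
            add_le_add (map_mul_le_mul p _ _) (map_mul_le_mul p _ _)
        _ = 2 * (p L * p (U - z)) := by ring
        _ ≤ 2 * ((2 ^ k * p D) * (2 ^ k * p D)) := by
            have := mul_le_mul hL c1 (apply_nonneg p _) (by positivity)
            linarith
        _ = 2 * (4 ^ k * p D ^ 2) := by
            have : (4:ℝ) ^ k = 2 ^ k * 2 ^ k := by rw [← mul_pow]; norm_num
            rw [this]; ring
    calc _ ≤ p ((V - U - L) * U - U * (V - U - L)) + p (L * (U - z) - (U - z) * L) :=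
          map_add_le_add p _ _
      _ ≤ 2 * (4 ^ k * p D ^ 2) + 2 * (4 ^ k * p D ^ 2) := add_le_add t1 t2
      _ = 4 ^ (k + 1) * p D ^ 2 := by ring

include h1 hZ in
/-- Linear part in a context: cheap bound. -/
lemma tmL_ctx (G k : ℕ) : p (Z ^ G * tmL Z D k * Z ^ G) ≤ 2 ^ k * p (Z ^ G * D * Z ^ G) := by
  induction k with
  | zero => simp [tmL]
  | succ k ih =>
    have hz := p_pow_le_one p h1 hZ (2 ^ k)
    have e : Z ^ G * tmL Z D (k + 1) * Z ^ G =
        (Z ^ G * tmL Z D k * Z ^ G) * Z ^ (2 ^ k) - Z ^ (2 ^ k) * (Z ^ G * tmL Z D k * Z ^ G) := by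
      have c1 : Z ^ (2 ^ k) * Z ^ G = Z ^ G * Z ^ (2 ^ k) := by rw [← pow_add, ← pow_add, add_comm]
      show Z ^ G * (tmL Z D k * Z ^ (2 ^ k) - Z ^ (2 ^ k) * tmL Z D k) * Z ^ G = _
      have e1 : Z ^ G * (tmL Z D k * Z ^ (2 ^ k) - Z ^ (2 ^ k) * tmL Z D k) * Z ^ G =
          Z ^ G * tmL Z D k * (Z ^ (2 ^ k) * Z ^ G) - (Z ^ G * Z ^ (2 ^ k)) * tmL Z D k * Z ^ G := by
        noncomm_ring
      rw [e1]
      rw [c1]
      have e2 : (Z ^ G * Z ^ (2 ^ k)) * tmL Z D k * Z ^ G = (Z ^ (2 ^ k) * Z ^ G) * tmL Z D k * Z ^ G := by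
        rw [c1]
      rw [e2]
      simp only [mul_assoc]
    rw [e]
    calc _ ≤ p ((Z ^ G * tmL Z D k * Z ^ G) * Z ^ (2 ^ k)) +
          p (Z ^ (2 ^ k) * (Z ^ G * tmL Z D k * Z ^ G)) := p_sub_le p _ _
      _ ≤ p (Z ^ G * tmL Z D k * Z ^ G) + p (Z ^ G * tmL Z D k * Z ^ G) :=
          add_le_add (p_mul_le_right p hz) (p_mul_le_left p hz)
      _ ≤ 2 ^ k * p (Z ^ G * D * Z ^ G) + 2 ^ k * p (Z ^ G * D * Z ^ G) := add_le_add ih ih
      _ = 2 ^ (k + 1) * p (Z ^ G * D * Z ^ G) := by ring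

include h1 hZ in
/-- Linear part in a long context: every level of the Thue-Morse word gains the slip factor. -/
lemma tmL_kill {s : ℝ} {g : ℕ} (hs : p ((1 - Z) * Z ^ g) ≤ s) (k : ℕ) :
    p (Z ^ (k * g) * tmL Z D k * Z ^ (k * g)) ≤ (∏ b ∈ Finset.range k, (2 * (2 ^ b * s))) * p D := by
  have hs0 : 0 ≤ s := (apply_nonneg p _).trans hs
  induction k with
  | zero => simp [tmL]
  | succ k ih =>
    -- `(1 - Z ^ n) * Z ^ g` is at most `n * s`
    have hn : ∀ n : ℕ, p ((1 - Z ^ n) * Z ^ g) ≤ n * s := by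
      intro n
      induction n with
      | zero => simp
      | succ n ihn =>
        have e : (1 - Z ^ (n + 1)) * Z ^ g = (1 - Z ^ n) * Z ^ g + Z ^ n * ((1 - Z) * Z ^ g) := by
          rw [pow_succ]; noncomm_ring
        rw [e]
        calc _ ≤ p ((1 - Z ^ n) * Z ^ g) + p (Z ^ n * ((1 - Z) * Z ^ g)) := map_add_le_add p _ _
          _ ≤ n * s + s := add_le_add ihn ((p_mul_le_left p (p_pow_le_one p h1 hZ n)).trans hs)
          _ = ((n + 1 : ℕ) : ℝ) * s := by push_cast; ring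
    have hn' : ∀ n : ℕ, p (Z ^ g * (1 - Z ^ n)) ≤ n * s := by
      intro n
      have : Z ^ g * (1 - Z ^ n) = (1 - Z ^ n) * Z ^ g := by
        rw [mul_sub, sub_mul, mul_one, one_mul, ← pow_add, ← pow_add, add_comm]
      rw [this]; exact hn n
    set X := Z ^ (k * g) * tmL Z D k * Z ^ (k * g) with hX
    have cm : ∀ a b : ℕ, Z ^ a * Z ^ b = Z ^ b * Z ^ a := fun a b => by
      rw [← pow_add, ← pow_add, add_comm]
    have e : Z ^ ((k + 1) * g) * tmL Z D (k + 1) * Z ^ ((k + 1) * g) =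
        (Z ^ g * (1 - Z ^ (2 ^ k))) * X * Z ^ g - Z ^ g * X * ((1 - Z ^ (2 ^ k)) * Z ^ g) := by
      have ee : Z ^ ((k + 1) * g) = Z ^ g * Z ^ (k * g) := by rw [← pow_add]; congr 1; ring
      have ee' : Z ^ ((k + 1) * g) = Z ^ (k * g) * Z ^ g := by rw [← pow_add]; congr 1; ring
      have l1 : Z ^ ((k + 1) * g) * tmL Z D (k + 1) * Z ^ ((k + 1) * g) =
          Z ^ ((k + 1) * g) * tmL Z D k * (Z ^ (2 ^ k) * Z ^ ((k + 1) * g)) -
          (Z ^ ((k + 1) * g) * Z ^ (2 ^ k)) * tmL Z D k * Z ^ ((k + 1) * g) := by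
        show Z ^ ((k + 1) * g) * (tmL Z D k * Z ^ (2 ^ k) - Z ^ (2 ^ k) * tmL Z D k) *
          Z ^ ((k + 1) * g) = _
        noncomm_ring
      have l2 : Z ^ (2 ^ k) * Z ^ ((k + 1) * g) = Z ^ (k * g) * (Z ^ (2 ^ k) * Z ^ g) := by
        rw [ee', ← mul_assoc, cm (2 ^ k), mul_assoc]
      have l3 : Z ^ ((k + 1) * g) * Z ^ (2 ^ k) = Z ^ g * Z ^ (2 ^ k) * Z ^ (k * g) := by
        rw [ee, mul_assoc, cm (k * g), mul_assoc]
      rw [l1, l2, l3, hX]
      have m1 : Z ^ ((k + 1) * g) * tmL Z D k * (Z ^ (k * g) * (Z ^ (2 ^ k) * Z ^ g)) =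
          Z ^ g * X * (Z ^ (2 ^ k) * Z ^ g) := by
        rw [ee, hX]; simp only [mul_assoc]
      have m2 : Z ^ g * Z ^ (2 ^ k) * Z ^ (k * g) * tmL Z D k * Z ^ ((k + 1) * g) =
          Z ^ g * Z ^ (2 ^ k) * X * Z ^ g := by
        rw [ee', hX]; simp only [mul_assoc]
      rw [m1, m2, ← hX]
      noncomm_ring
    rw [e]
    have hg := p_pow_le_one p h1 hZ g
    have hXX : p X ≤ (∏ b ∈ Finset.range k, (2 * (2 ^ b * s))) * p D := ih
    have hcast : (((2 : ℕ) ^ k : ℕ) : ℝ) = (2:ℝ) ^ k := by push_cast; rfl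
    have a1 := hn (2 ^ k)
    have a2 := hn' (2 ^ k)
    rw [hcast] at a1 a2
    have hX0 : (0:ℝ) ≤ p X := apply_nonneg p _
    calc _ ≤ p ((Z ^ g * (1 - Z ^ (2 ^ k))) * X * Z ^ g) +
          p (Z ^ g * X * ((1 - Z ^ (2 ^ k)) * Z ^ g)) := p_sub_le p _ _
      _ ≤ (2 ^ k * s) * p X + p X * (2 ^ k * s) := by
          refine add_le_add ?_ ?_
          · calc _ ≤ p ((Z ^ g * (1 - Z ^ (2 ^ k))) * X) := p_mul_le_right p hg
              _ ≤ p (Z ^ g * (1 - Z ^ (2 ^ k))) * p X := map_mul_le_mul p _ _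
              _ ≤ (2 ^ k * s) * p X := mul_le_mul_of_nonneg_right a2 hX0
          · calc _ ≤ p (Z ^ g * X) * p ((1 - Z ^ (2 ^ k)) * Z ^ g) := map_mul_le_mul p _ _
              _ ≤ p X * (2 ^ k * s) :=
                mul_le_mul (p_mul_le_left p hg) a1 (apply_nonneg p _) hX0
      _ = (2 * (2 ^ k * s)) * p X := by ring
      _ ≤ (2 * (2 ^ k * s)) * ((∏ b ∈ Finset.range k, (2 * (2 ^ b * s))) * p D) :=
          mul_le_mul_of_nonneg_left hXX (by positivity)
      _ = (∏ b ∈ Finset.range (k + 1), (2 * (2 ^ b * s))) * p D := by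
          rw [Finset.prod_range_succ]; ring

include h1 hZ hV in
/-- Powers of the Thue-Morse word are close to powers of the background. -/
lemma tm_pow_sub (k n : ℕ) :
    p ((tmU Z (Z + D) k).1 ^ n - Z ^ (2 ^ k * n)) ≤ n * (2 ^ k * p D) := by
  obtain ⟨b1, -⟩ := tm_le_one hZ hV k
  obtain ⟨c1, -⟩ := tm_sub_pow h1 hZ hV k
  induction n with
  | zero => simp
  | succ n ih =>
    have hz := p_pow_le_one p h1 hZ (2 ^ k * n)
    have e : (tmU Z (Z + D) k).1 ^ (n + 1) - Z ^ (2 ^ k * (n + 1)) =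
        ((tmU Z (Z + D) k).1 ^ n - Z ^ (2 ^ k * n)) * (tmU Z (Z + D) k).1 +
        Z ^ (2 ^ k * n) * ((tmU Z (Z + D) k).1 - Z ^ (2 ^ k)) := by
      rw [pow_succ, mul_add (2 ^ k) n 1, mul_one, pow_add]
      noncomm_ring
    rw [e]
    calc _ ≤ p (((tmU Z (Z + D) k).1 ^ n - Z ^ (2 ^ k * n)) * (tmU Z (Z + D) k).1) +
          p (Z ^ (2 ^ k * n) * ((tmU Z (Z + D) k).1 - Z ^ (2 ^ k))) := map_add_le_add p _ _
      _ ≤ n * (2 ^ k * p D) + 2 ^ k * p D :=
          add_le_add ((p_mul_le_right p b1).trans ih) ((p_mul_le_left p hz).trans c1)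
      _ = ((n + 1 : ℕ) : ℝ) * (2 ^ k * p D) := by push_cast; ring

include h1 hZ hV in
/-- **S-step.**  The difference of the Thue-Morse pair between `M` copies of the first word on
each side, compared with the linear part in a pure context. -/
theorem sstep (k G M : ℕ) (hGM : G ≤ M) :
    p ((tmU Z (Z + D) k).1 ^ M * ((tmU Z (Z + D) k).2 - (tmU Z (Z + D) k).1) *
      (tmU Z (Z + D) k).1 ^ M) ≤
    p (Z ^ (2 ^ k * G) * tmL Z D k * Z ^ (2 ^ k * G)) + (2 * G + 1) * (4 ^ k * p D ^ 2) := by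
  obtain ⟨b1, b2⟩ := tm_le_one hZ hV k
  have hU : ∀ n, p ((tmU Z (Z + D) k).1 ^ n) ≤ 1 := fun n => p_pow_le_one p h1 b1 n
  have hn := tm_pow_sub (D := D) h1 hZ hV k G
  have hR := tm_rem (D := D) h1 hZ hV k
  have hL := tmL_le (D := D) h1 hZ k
  have hz := p_pow_le_one p h1 hZ (2 ^ k * G)
  set U := (tmU Z (Z + D) k).1 with hUdef
  set V := (tmU Z (Z + D) k).2 with hVdef
  set L := tmL Z D k with hLdef
  set z := Z ^ (2 ^ k * G) with hzdef
  have e : U ^ M * (V - U) * U ^ M =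
      U ^ (M - G) * (U ^ G * (V - U) * U ^ G) * U ^ (M - G) := by
    have h1' : U ^ M = U ^ (M - G) * U ^ G := by rw [← pow_add]; congr 1; omega
    have h2' : U ^ M = U ^ G * U ^ (M - G) := by rw [← pow_add]; congr 1; omega
    calc U ^ M * (V - U) * U ^ M = (U ^ (M - G) * U ^ G) * (V - U) * (U ^ G * U ^ (M - G)) := by
          rw [← h1', ← h2']
      _ = _ := by simp only [mul_assoc]
  have e2 : U ^ G * (V - U) * U ^ G =
      U ^ G * (V - U - L) * U ^ G + (z * L * z + ((U ^ G - z) * (L * U ^ G) + z * L * (U ^ G - z))) := by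
    noncomm_ring
  have hLn : (0:ℝ) ≤ p L := apply_nonneg p _
  have t0 : p (U ^ G * (V - U - L) * U ^ G) ≤ 4 ^ k * p D ^ 2 :=
    ((p_mul_le_right p (hU G)).trans (p_mul_le_left p (hU G))).trans hR
  have t1 : p ((U ^ G - z) * (L * U ^ G)) ≤ G * (4 ^ k * p D ^ 2) := by
    calc _ ≤ p (U ^ G - z) * p (L * U ^ G) := map_mul_le_mul p _ _
      _ ≤ (G * (2 ^ k * p D)) * (2 ^ k * p D) :=
          mul_le_mul hn ((p_mul_le_right p (hU G)).trans hL) (apply_nonneg p _)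
            (by have : (0:ℝ) ≤ p D := apply_nonneg p _; positivity)
      _ = G * (4 ^ k * p D ^ 2) := by
          have : (4:ℝ) ^ k = 2 ^ k * 2 ^ k := by rw [← mul_pow]; norm_num
          rw [this]; ring
  have t2 : p (z * L * (U ^ G - z)) ≤ G * (4 ^ k * p D ^ 2) := by
    calc _ ≤ p (z * L) * p (U ^ G - z) := map_mul_le_mul p _ _
      _ ≤ (2 ^ k * p D) * (G * (2 ^ k * p D)) :=
          mul_le_mul ((p_mul_le_left p hz).trans hL) hn (apply_nonneg p _)
            (by have : (0:ℝ) ≤ p D := apply_nonneg p _; positivity)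
      _ = G * (4 ^ k * p D ^ 2) := by
          have : (4:ℝ) ^ k = 2 ^ k * 2 ^ k := by rw [← mul_pow]; norm_num
          rw [this]; ring
  rw [e]
  calc _ ≤ p (U ^ G * (V - U) * U ^ G) :=
        (p_mul_le_right p (hU _)).trans (p_mul_le_left p (hU _))
    _ ≤ p (U ^ G * (V - U - L) * U ^ G) +
        (p (z * L * z) + (p ((U ^ G - z) * (L * U ^ G)) + p (z * L * (U ^ G - z)))) := by
        rw [e2]
        refine (map_add_le_add p _ _).trans (add_le_add le_rfl ?_)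
        refine (map_add_le_add p _ _).trans (add_le_add le_rfl ?_)
        exact map_add_le_add p _ _
    _ ≤ p (z * L * z) + (2 * G + 1) * (4 ^ k * p D ^ 2) := by nlinarith [t0, t1, t2]

end

end Vale.Agent.P321.H181
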