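import Vale.Agent.P321.H181.SStep
import Vale.Agent.P321.H181.TSpec

/-!
Thue-Morse words over a pair of words, padded words.
-/

namespace Vale.Agent.P321.H181

open Vale.Agent.P321.LB2

/-- Thue-Morse pair of words -/
def tmW (x y : List Bool) : ℕ → List Bool × List Bool
  | 0 => (x, y)
  | k + 1 => ((tmW x y k).1 ++ (tmW x y k).2, (tmW x y k).2 ++ (tmW x y k).1)

theorem W_tmW (q : ℝ) (x y : List Bool) (k : ℕ) :
    W q (tmW x y k).1 = (tmU (W q x) (W q y) k).1 ∧
    W q (tmW x y k).2 = (tmU (W q x) (W q y) k).2 := by
  induction k with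
  | zero => exact ⟨rfl, rfl⟩
  | succ k ih =>
    obtain ⟨i1, i2⟩ := ih
    exact ⟨by show W q (_ ++ _) = _ * _; rw [W_append, i1, i2],
      by show W q (_ ++ _) = _ * _; rw [W_append, i1, i2]⟩

theorem tmW_length {x y : List Bool} (h : y.length = x.length) (k : ℕ) :
    (tmW x y k).1.length = 2 ^ k * x.length ∧ (tmW x y k).2.length = 2 ^ k * x.length := by
  induction k with
  | zero => simp [tmW, h]
  | succ k ih =>
    obtain ⟨i1, i2⟩ := ih
    constructor
    · show (_ ++ _ : List Bool).length = _
      rw [List.length_append, i1, i2]; ring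
    · show (_ ++ _ : List Bool).length = _
      rw [List.length_append, i1, i2]; ring

theorem tmW_ne {x y : List Bool} (h : y.length = x.length) (hne : x ≠ y) (k : ℕ) :
    (tmW x y k).1 ≠ (tmW x y k).2 := by
  induction k with
  | zero => exact hne
  | succ k ih =>
    intro he
    obtain ⟨i1, i2⟩ := tmW_length h k
    have := List.append_inj (show (tmW x y k).1 ++ (tmW x y k).2 = (tmW x y k).2 ++ (tmW x y k).1
      from he) (by rw [i1, i2])
    exact ih this.1

theorem W_rep (q : ℝ) (x : List Bool) (n : ℕ) : W q (rep x n) = W q x ^ n :=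
  F_rep (W q) (W_append q) (W_nil q) x n

/-- padded word: `x` between `h` copies of `b` on both sides -/
def padW (b x : List Bool) (h : ℕ) : List Bool := rep b h ++ x ++ rep b h

theorem W_padW (q : ℝ) (b x : List Bool) (h : ℕ) :
    W q (padW b x h) = W q b ^ h * W q x * W q b ^ h := by
  rw [padW, W_append, W_append, W_rep]

theorem W_padW_self (q : ℝ) (b : List Bool) (h : ℕ) :
    W q (padW b b h) = W q b ^ (2 * h + 1) := by
  rw [W_padW, ← pow_succ, ← pow_add]; congr 1; ring

theorem padW_length {b x : List Bool} (h : x.length = b.length) (n : ℕ) :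
    (padW b x n).length = (2 * n + 1) * b.length := by
  rw [padW, List.length_append, List.length_append, rep_length, h]; ring

theorem padW_ne {b x : List Bool} (hne : b ≠ x) (n : ℕ) :
    padW b b n ≠ padW b x n := by
  intro he
  unfold padW at he
  rw [List.append_assoc, List.append_assoc] at he
  have h1 := List.append_cancel_left he
  exact hne (List.append_cancel_right h1)

end Vale.Agent.P321.H181
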